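import Vale.Agent.P146.H119.KInt
import Vale.Agent.P146.H9.MonoSK

/-!
# P146: the instance `Base` at the canonical two-level system

`e2c S t v`, `e1c S t v`: energies of the bonds / fields at the bond share `t` and the field
variance `v ∈ [0, V]`, computed with two bond levels `√t, √(1-t)` and two field levels
`√v, √(V-v)`, the first ones revealed. `base_sk`: every level system has these numbers.
`e2c_mono`, `e1c_mono`: monotone in all arguments. `kp_upper`, `kp_lower`: the K-path without hypotheses.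
-/

open MeasureTheory ProbabilityTheory

namespace Vale.Agent.P146.H119

open Vale.Agent.P157.Lv hiding Dep
open Vale.Agent.P146.H425 Vale.Agent.P146.H646
open Vale.Agent.P146.H347 Vale.Agent.P146.H816 Vale.Agent.P146.H325

set_option linter.unusedSectionVars false

/-- two levels of the bonds, the first one with share `t` -/
noncomputable def cbl (t : ℝ) : Bool → ℝ := fun β => if β then √t else √(1 - t)

/-- two levels of the fields, the first one with variance `v` -/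
noncomputable def cfl (V v : ℝ) : Bool → ℝ := fun β => if β then √v else √(V - v)

lemma sum_cbl {t : ℝ} (h0 : 0 ≤ t) (h1 : t ≤ 1) :
    (∑ β, cbl t β ^ 2 = 1) ∧ ∑ β ∈ {true}, cbl t β ^ 2 = t := by
  constructor
  · simp [cbl, Real.sq_sqrt h0, Real.sq_sqrt (by linarith : (0 : ℝ) ≤ 1 - t)]
  · simp [cbl, Real.sq_sqrt h0]

lemma sum_cfl {V v : ℝ} (h0 : 0 ≤ v) (h1 : v ≤ V) :
    (∑ β, cfl V v β ^ 2 = V) ∧ ∑ β ∈ {true}, cfl V v β ^ 2 = v := by
  constructor
  · simp [cfl, Real.sq_sqrt h0, Real.sq_sqrt (by linarith : (0 : ℝ) ≤ V - v)]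
  · simp [cfl, Real.sq_sqrt h0]

section canon

variable (n : ℕ) (b V s lam η c x : ℝ)

/-- energy of the bonds inside `S` -/
noncomputable def e2c (S : Finset (Fin n)) (t v : ℝ) : ℝ :=
  Q2 n b (cbl t) (cfl V v) s lam η c x S (Kset S {true} {true})

/-- energy of the fields on `S` -/
noncomputable def e1c (S : Finset (Fin n)) (t v : ℝ) : ℝ :=
  Q1 n b (cbl t) (cfl V v) s lam η c x S (Kset S {true} {true})

/-- the entropy production -/
noncomputable def K0c : ℝ :=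
  KL (H196.lzm (H475.muA (Xs n) lam η c) 1 (H246.Sb n b 1 (√V) s η)) x

end canon

section inst

variable {n : ℕ} {b V s lam η c x : ℝ}

/-- shares -/
lemma sh_of {LB LF : Type} [Fintype LB] [DecidableEq LB] [Fintype LF] [DecidableEq LF]
    {cB : LB → ℝ} {cF : LF → ℝ} (hV : 0 < V) (hB : shr cB Finset.univ = 1)
    (hF : shr cF Finset.univ = V) (BL : Finset LB) (FL : Finset LF) :
    H246.Sh cB cF BL FL 1 (√V) (shr cB BL) (shr cF FL / V) where
  totB := by rw [one_pow]; exact hB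
  totF := by rw [Real.sq_sqrt hV.le]; exact hF
  shB := by rw [one_pow, mul_one]
  shF := by rw [Real.sq_sqrt hV.le, div_mul_cancel₀ _ hV.ne']

lemma shr_nonneg {LL : Type} (c : LL → ℝ) (T : Finset LL) : 0 ≤ shr c T :=
  Finset.sum_nonneg fun _ _ => sq_nonneg _

lemma shr_le {LL : Type} [Fintype LL] (c : LL → ℝ) (T : Finset LL) :
    shr c T ≤ shr c Finset.univ :=
  Finset.sum_le_sum_of_subset_of_nonneg (Finset.subset_univ T) fun _ _ _ => sq_nonneg _

lemma sh_can (hV : 0 < V) {t v : ℝ} (ht0 : 0 ≤ t) (ht1 : t ≤ 1) (hv0 : 0 ≤ v) (hv1 : v ≤ V) :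
    H246.Sh (cbl t) (cfl V v) {true} {true} 1 (√V) t (v / V) := by
  obtain ⟨a1, a2⟩ := sum_cbl ht0 ht1
  obtain ⟨b1, b2⟩ := sum_cfl hv0 hv1
  have h := sh_of hV a1 b1 {true} {true}
  unfold shr at h
  rw [a2, b2] at h
  exact h

/-- `Q2` is one of the numbers of `H9` -/
lemma Q2_mono {LB LF LB' LF' : Type} [Fintype LB] [DecidableEq LB] [Fintype LF] [DecidableEq LF]
    [Fintype LB'] [DecidableEq LB'] [Fintype LF'] [DecidableEq LF']
    {cB : LB → ℝ} {cF : LF → ℝ} {cB' : LB' → ℝ} {cF' : LF' → ℝ}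
    {S S' : Finset (Fin n)} {BL : Finset LB} {FL : Finset LF} {BL' : Finset LB'}
    {FL' : Finset LF'} {t u t' u' CB CF : ℝ} (hl : 0 < lam) (hη : 0 ≤ η) (hB : 0 < CB)
    (hF : 0 < CF) (hs : H246.Sh cB cF BL FL CB CF t u)
    (hs' : H246.Sh cB' cF' BL' FL' CB CF t' u') (hS : S ⊆ S') (ht : t ≤ t') (hu : u ≤ u') :
    Q2 n b cB cF s lam η c x S (Kset S BL FL) ≤
      Q2 n b cB' cF' s lam η c x S' (Kset S' BL' FL') := by
  have h := H9.PPs_mono (n := n) (b := b) (s := s) (c := c) (x := x) hl hη hB hF hs hs' hS ht hu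
  exact h

lemma Q1_mono {LB LF LB' LF' : Type} [Fintype LB] [DecidableEq LB] [Fintype LF] [DecidableEq LF]
    [Fintype LB'] [DecidableEq LB'] [Fintype LF'] [DecidableEq LF']
    {cB : LB → ℝ} {cF : LF → ℝ} {cB' : LB' → ℝ} {cF' : LF' → ℝ}
    {S S' : Finset (Fin n)} {BL : Finset LB} {FL : Finset LF} {BL' : Finset LB'}
    {FL' : Finset LF'} {t u t' u' CB CF : ℝ} (hl : 0 < lam) (hη : 0 ≤ η) (hB : 0 < CB)
    (hF : 0 < CF) (hs : H246.Sh cB cF BL FL CB CF t u)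
    (hs' : H246.Sh cB' cF' BL' FL' CB CF t' u') (hS : S ⊆ S') (ht : t ≤ t') (hu : u ≤ u') :
    Q1 n b cB cF s lam η c x S (Kset S BL FL) ≤
      Q1 n b cB' cF' s lam η c x S' (Kset S' BL' FL') := by
  have h := H9.MMs_mono (n := n) (b := b) (s := s) (c := c) (x := x) hl hη hB hF hs hs' hS ht hu
  exact h

/-- **The numbers of every level system are the canonical ones.** -/
theorem base_sk (hl : 0 < lam) (hη : 0 ≤ η) (hV : 0 < V) :
    Base n b V s lam η c x (K0c n b V s lam η c x) (e2c n b V s lam η c x)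
      (e1c n b V s lam η c x) where
  kl := by
    intro LB LF _ _ _ _ cB cF hB hF
    have h1 := gmA (n := n) b (fun _ : Unit => (1 : ℝ)) (fun _ : Unit => √V) s hl hη c
    have h2 := gmA (n := n) b cB cF s hl hη c
    have hs := sh_of hV hB hF ∅ ∅
    exact H9.KL_levels h1 h2 one_pos (Real.sqrt_pos.2 hV) hs.totB hs.totF x
  q2 := by
    intro LB LF _ _ _ _ cB cF hB hF S BL FL
    have hs := sh_of hV hB hF BL FL
    have hs' := sh_can hV (shr_nonneg cB BL) (hB ▸ shr_le cB BL) (shr_nonneg cF FL)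
      (hF ▸ shr_le cF FL)
    exact le_antisymm
      (Q2_mono hl hη one_pos (Real.sqrt_pos.2 hV) hs hs' (subset_refl S) le_rfl le_rfl)
      (Q2_mono hl hη one_pos (Real.sqrt_pos.2 hV) hs' hs (subset_refl S) le_rfl le_rfl)
  q1 := by
    intro LB LF _ _ _ _ cB cF hB hF S BL FL
    have hs := sh_of hV hB hF BL FL
    have hs' := sh_can hV (shr_nonneg cB BL) (hB ▸ shr_le cB BL) (shr_nonneg cF FL)
      (hF ▸ shr_le cF FL)
    exact le_antisymm
      (Q1_mono hl hη one_pos (Real.sqrt_pos.2 hV) hs hs' (subset_refl S) le_rfl le_rfl)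
      (Q1_mono hl hη one_pos (Real.sqrt_pos.2 hV) hs' hs (subset_refl S) le_rfl le_rfl)

theorem e2c_mono (hl : 0 < lam) (hη : 0 ≤ η) (hV : 0 < V) {S S' : Finset (Fin n)}
    {t t' v v' : ℝ} (hS : S ⊆ S') (ht0 : 0 ≤ t) (ht : t ≤ t') (ht1 : t' ≤ 1) (hv0 : 0 ≤ v)
    (hv : v ≤ v') (hv1 : v' ≤ V) :
    e2c n b V s lam η c x S t v ≤ e2c n b V s lam η c x S' t' v' :=
  Q2_mono hl hη one_pos (Real.sqrt_pos.2 hV) (sh_can hV ht0 (ht.trans ht1) hv0 (hv.trans hv1))
    (sh_can hV (ht0.trans ht) ht1 (hv0.trans hv) hv1) hS ht (by gcongr)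

theorem e1c_mono (hl : 0 < lam) (hη : 0 ≤ η) (hV : 0 < V) {S S' : Finset (Fin n)}
    {t t' v v' : ℝ} (hS : S ⊆ S') (ht0 : 0 ≤ t) (ht : t ≤ t') (ht1 : t' ≤ 1) (hv0 : 0 ≤ v)
    (hv : v ≤ v') (hv1 : v' ≤ V) :
    e1c n b V s lam η c x S t v ≤ e1c n b V s lam η c x S' t' v' :=
  Q1_mono hl hη one_pos (Real.sqrt_pos.2 hV) (sh_can hV ht0 (ht.trans ht1) hv0 (hv.trans hv1))
    (sh_can hV (ht0.trans ht) ht1 (hv0.trans hv) hv1) hS ht (by gcongr)

theorem e2c_nonneg (hl : 0 < lam) (hη : 0 ≤ η) (S : Finset (Fin n)) (t v : ℝ) :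
    0 ≤ e2c n b V s lam η c x S t v := by
  unfold e2c
  rw [← q2_eq b (cbl t) (cfl V v) s c hl hη]
  exact (lev_sk b (cbl t) (cfl V v) s c hl hη).q2_nonneg x _ _

theorem e1c_nonneg (hl : 0 < lam) (hη : 0 ≤ η) (S : Finset (Fin n)) (t v : ℝ) :
    0 ≤ e1c n b V s lam η c x S t v := by
  unfold e1c
  rw [← q1_eq b (cbl t) (cfl V v) s c hl hη]
  exact (lev_sk b (cbl t) (cfl V v) s c hl hη).q1_nonneg x _ _

/-- `e2c` is monotone in the bond share -/
lemma e2c_monoOn (hl : 0 < lam) (hη : 0 ≤ η) (hV : 0 < V) (S : Finset (Fin n)) {v : ℝ}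
    (hv0 : 0 ≤ v) (hv1 : v ≤ V) {t t' : ℝ} (ht0 : 0 ≤ t) (ht1 : t' ≤ 1) :
    MonotoneOn (fun u => e2c n b V s lam η c x S u v) (Set.Icc t t') :=
  fun _ h1 _ h2 h12 => e2c_mono hl hη hV (Finset.Subset.refl S) (ht0.trans h1.1) h12
    (h2.2.trans ht1) hv0 le_rfl hv1

/-- **The K-path from below**, no hypothesis on the numbers. -/
theorem kp_lower (hl : 0 < lam) (hη : 0 ≤ η) (hx : 0 < x) (hV : 0 < V) {S : Finset (Fin n)}
    {v : ℝ} (h0 : 0 ≤ v) (h1 : v ≤ V) {t : ℝ} (ht0 : 0 ≤ t) (ht1 : t ≤ 1) :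
    x ^ 2 * b ^ 2 / (2 * n) * ∫ u in (0 : ℝ)..t, e2c n b V s lam η c x S u v ≤
      K0c n b V s lam η c x :=
  kint_lower (base_sk hl hη hV) hl hη hx h0 h1 ht0 ht1
    (e2c_monoOn hl hη hV S h0 h1 le_rfl ht1)

/-- **The K-path from above**, no hypothesis on the numbers. -/
theorem kp_upper (hl : 0 < lam) (hη : 0 ≤ η) (hn : 0 < n) (hx : 0 < x) (hV : 0 < V)
    {S : Finset (Fin n)} {v v' : ℝ} (h0 : 0 ≤ v) (h1 : v ≤ v') (h2 : v' ≤ V) {t : ℝ}
    (ht0 : 0 ≤ t) (ht1 : t ≤ 1) :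
    K0c n b V s lam η c x ≤ x ^ 2 / 2 * v * e1c n b V s lam η c x S 0 v +
      x ^ 2 * b ^ 2 / (2 * n) * (∫ u in (0 : ℝ)..t, e2c n b V s lam η c x S u v) +
      x ^ 2 / 2 * (b ^ 2 / n * t * (2 * ((n - S.card : ℝ) / n) *
          e2c n b V s lam η c x Finset.univ t v') +
        (v' * ((n - S.card : ℝ) / n) + (v' - v)) *
          e1c n b V s lam η c x Finset.univ t v') +
      x ^ 2 * b ^ 2 / (2 * n) *
        (∫ u in t..1, e2c n b V s lam η c x Finset.univ u v') +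
      x ^ 2 / 2 * (n * (V - v' + s ^ 2 * (1 + η) ^ 2)) :=
  kint_upper (base_sk hl hη hV) hl hη hn hx h0 h1 h2 ht0 ht1
    (e2c_monoOn hl hη hV S h0 (h1.trans h2) le_rfl ht1)
    (e2c_monoOn hl hη hV Finset.univ (h0.trans h1) h2 ht0 le_rfl)

end inst

end Vale.Agent.P146.H119
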