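import Vale.Agent.P146.H119.KPathSK

/-!
# P146: the K-path of the modulated SK system with integrals over the bond share

`Base`: the numbers `e2 S t v`, `e1 S t v` (energies of the bonds / fields at the bond share `t` and
the field variance `v`, frozen set of sites `S`) as functions of the shares.
`kgrid_upper`, `kgrid_lower`: any grid; `kint_upper`, `kint_lower`: two-sided bounds of the entropy
production by integrals of `e2`.
-/

open MeasureTheory ProbabilityTheory

namespace Vale.Agent.P146.H119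

open Vale.Agent.P157.Lv hiding Dep
open Vale.Agent.P146.H425 Vale.Agent.P146.H646
open Vale.Agent.P146.H347 Vale.Agent.P146.H816 Vale.Agent.P146.H325

set_option linter.unusedSectionVars false

/-! ### Riemann sums of monotone functions -/

section riemann

variable {g : ℝ → ℝ} {a b : ℝ}

lemma mono_comp (hab : a ≤ b) (hg : MonotoneOn g (Set.Icc a b)) {N : ℕ} (hN : 0 < N) :
    MonotoneOn (fun u : ℝ => g (a + (b - a) / N * u)) (Set.Icc 0 (0 + (N : ℝ))) := by
  have hN' : (0 : ℝ) < N := Nat.cast_pos.2 hN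
  have hd : 0 ≤ (b - a) / N := div_nonneg (by linarith) hN'.le
  have key : ∀ u ∈ Set.Icc 0 (0 + (N : ℝ)), a + (b - a) / N * u ∈ Set.Icc a b := by
    intro u hu
    have h1 : (b - a) / N * u ≤ (b - a) / N * N :=
      mul_le_mul_of_nonneg_left (by linarith [hu.2]) hd
    rw [div_mul_cancel₀ _ hN'.ne'] at h1
    exact ⟨by linarith [mul_nonneg hd hu.1], by linarith⟩
  intro u hu v hv huv
  exact hg (key u hu) (key v hv) (by linarith [mul_le_mul_of_nonneg_left huv hd])

lemma int_comp {N : ℕ} (hN : 0 < N) (hab : a < b) :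
    (b - a) / N * ∫ u in (0 : ℝ)..(0 + (N : ℝ)), g (a + (b - a) / N * u) =
      ∫ t in a..b, g t := by
  have hN' : (0 : ℝ) < N := Nat.cast_pos.2 hN
  have hd : (b - a) / N ≠ 0 := (div_pos (by linarith) hN').ne'
  rw [intervalIntegral.integral_comp_add_mul _ hd, smul_eq_mul, ← mul_assoc,
    mul_inv_cancel₀ hd, one_mul]
  congr 1
  · ring
  · field_simp
    ring

/-- upper Riemann sum of a monotone function -/
lemma riemann_up (hab : a ≤ b) (hg : MonotoneOn g (Set.Icc a b)) {N : ℕ} (hN : 0 < N) :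
    ∑ l ∈ Finset.range N, (b - a) / N * g (a + (b - a) / N * ((l + 1 : ℕ) : ℝ)) ≤
      (∫ t in a..b, g t) + (b - a) / N * (g b - g a) := by
  have hN' : (0 : ℝ) < N := Nat.cast_pos.2 hN
  rcases hab.eq_or_lt with h | h
  · subst h
    simp
  · have h1 := (mono_comp hab hg hN).sum_le_integral
    simp only [zero_add] at h1
    have h2 := int_comp (g := g) hN h
    simp only [zero_add] at h2
    have hd : 0 ≤ (b - a) / N := div_nonneg (by linarith) hN'.le
    have h3 : ∑ l ∈ Finset.range N, g (a + (b - a) / N * ((l + 1 : ℕ) : ℝ)) =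
        ∑ l ∈ Finset.range N, g (a + (b - a) / N * (l : ℝ)) + (g b - g a) := by
      have h4 := Finset.sum_range_succ' (fun l : ℕ => g (a + (b - a) / N * (l : ℝ))) N
      have h5 := Finset.sum_range_succ (fun l : ℕ => g (a + (b - a) / N * (l : ℝ))) N
      rw [h5] at h4
      have e1 : a + (b - a) / N * (N : ℝ) = b := by
        rw [div_mul_cancel₀ _ hN'.ne']
        ring
      simp only [e1, Nat.cast_zero, mul_zero, add_zero] at h4
      linarith
    rw [← Finset.mul_sum, h3, mul_add, ← h2]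
    have h6 := mul_le_mul_of_nonneg_left h1 hd
    linarith

/-- lower Riemann sum of a monotone function -/
lemma riemann_dn (hab : a ≤ b) (hg : MonotoneOn g (Set.Icc a b)) {N : ℕ} (hN : 0 < N) :
    (∫ t in a..b, g t) - (b - a) / N * (g b - g a) ≤
      ∑ l ∈ Finset.range N, (b - a) / N * g (a + (b - a) / N * (l : ℝ)) := by
  have hN' : (0 : ℝ) < N := Nat.cast_pos.2 hN
  rcases hab.eq_or_lt with h | h
  · subst h
    simp
  · have h1 := (mono_comp hab hg hN).integral_le_sum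
    simp only [zero_add] at h1
    have h2 := int_comp (g := g) hN h
    simp only [zero_add] at h2
    have hd : 0 ≤ (b - a) / N := div_nonneg (by linarith) hN'.le
    have h3 : ∑ l ∈ Finset.range N, g (a + (b - a) / N * ((l + 1 : ℕ) : ℝ)) =
        ∑ l ∈ Finset.range N, g (a + (b - a) / N * (l : ℝ)) + (g b - g a) := by
      have h4 := Finset.sum_range_succ' (fun l : ℕ => g (a + (b - a) / N * (l : ℝ))) N
      have h5 := Finset.sum_range_succ (fun l : ℕ => g (a + (b - a) / N * (l : ℝ))) N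
      rw [h5] at h4
      have e1 : a + (b - a) / N * (N : ℝ) = b := by
        rw [div_mul_cancel₀ _ hN'.ne']
        ring
      simp only [e1, Nat.cast_zero, mul_zero, add_zero] at h4
      linarith
    rw [h3] at h1
    rw [← Finset.mul_sum, ← h2]
    have h6 := mul_le_mul_of_nonneg_left h1 hd
    linarith

end riemann

/-! ### level systems of a grid -/

/-- the first `k` levels -/
def lev (M k : ℕ) : Finset (Fin M) := Finset.univ.filter fun l => l.val < k

lemma lev_mono (M : ℕ) : Monotone (lev M) := by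
  intro k k' h l hl
  unfold lev at hl ⊢
  simp only [Finset.mem_filter, Finset.mem_univ, true_and] at hl ⊢
  omega

lemma lev_zero (M : ℕ) : lev M 0 = ∅ := by
  unfold lev
  simp

lemma lev_self (M : ℕ) : lev M M = Finset.univ := by
  unfold lev
  ext l
  simp

lemma shr_lev {M : ℕ} {d : ℕ → ℝ} (hd : ∀ l, 0 ≤ d l) {k : ℕ} (hk : k ≤ M) :
    shr (fun l : Fin M => √(d l.val)) (lev M k) = ∑ l ∈ Finset.range k, d l := by
  unfold shr lev
  simp only [Real.sq_sqrt (hd _)]
  rw [Finset.sum_filter, Fin.sum_univ_eq_sum_range (fun i => if i < k then d i else 0) M,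
    ← Finset.sum_filter]
  congr 1
  ext i
  simp only [Finset.mem_filter, Finset.mem_range]
  omega

/-- the coefficients of the three levels of the fields -/
noncomputable def cf3 (V v v' : ℝ) : Fin 3 → ℝ := ![√v, √(v' - v), √(V - v')]

lemma shr_cf3 {V v v' : ℝ} (h0 : 0 ≤ v) (h1 : v ≤ v') (h2 : v' ≤ V) :
    shr (cf3 V v v') {0} = v ∧ shr (cf3 V v v') {0, 1} = v' ∧
      shr (cf3 V v v') Finset.univ = V := by
  have e0 : √v ^ 2 = v := Real.sq_sqrt h0
  have e1 : √(v' - v) ^ 2 = v' - v := Real.sq_sqrt (by linarith)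
  have e2 : √(V - v') ^ 2 = V - v' := Real.sq_sqrt (by linarith)
  unfold shr
  refine ⟨?_, ?_, ?_⟩
  · simp [cf3, e0]
  · rw [Finset.sum_pair (by decide)]
    simp [cf3, e0, e1]
  · rw [Fin.sum_univ_three]
    simp [cf3, e0, e1, e2]

/-! ### the numbers as functions of the shares -/

/-- The entropy production and the energies of the modulated SK system depend on the shares
only. -/
structure Base (n : ℕ) (b V s lam η c x K0 : ℝ) (e2 e1 : Finset (Fin n) → ℝ → ℝ → ℝ) :
    Prop where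
  kl : ∀ {LB LF : Type} [Fintype LB] [DecidableEq LB] [Fintype LF] [DecidableEq LF]
    (cB : LB → ℝ) (cF : LF → ℝ), shr cB Finset.univ = 1 → shr cF Finset.univ = V →
    KL (Fm n b cB cF s lam η c) x = K0
  q2 : ∀ {LB LF : Type} [Fintype LB] [DecidableEq LB] [Fintype LF] [DecidableEq LF]
    (cB : LB → ℝ) (cF : LF → ℝ), shr cB Finset.univ = 1 → shr cF Finset.univ = V →
    ∀ S BL FL, Q2 n b cB cF s lam η c x S (Kset S BL FL) = e2 S (shr cB BL) (shr cF FL)
  q1 : ∀ {LB LF : Type} [Fintype LB] [DecidableEq LB] [Fintype LF] [DecidableEq LF]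
    (cB : LB → ℝ) (cF : LF → ℝ), shr cB Finset.univ = 1 → shr cF Finset.univ = V →
    ∀ S BL FL, Q1 n b cB cF s lam η c x S (Kset S BL FL) = e1 S (shr cB BL) (shr cF FL)

section grid

variable {n : ℕ} {b V s lam η c x K0 : ℝ} {e2 e1 : Finset (Fin n) → ℝ → ℝ → ℝ}
  {S : Finset (Fin n)} {v v' : ℝ}

/-- the entropy path along a grid, from below -/
theorem kgrid_lower (hb : Base n b V s lam η c x K0 e2 e1) (hl : 0 < lam) (hη : 0 ≤ η)
    (hx : 0 < x) (h0 : 0 ≤ v) (hV : v ≤ V) {d : ℕ → ℝ} (hd : ∀ l, 0 ≤ d l) {M N : ℕ}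
    (hN : N ≤ M) (hM : ∑ l ∈ Finset.range M, d l = 1) :
    ∑ l ∈ Finset.range N, x ^ 2 * b ^ 2 / (2 * n) * d l *
      e2 S (∑ i ∈ Finset.range l, d i) v ≤ K0 := by
  obtain ⟨f0, f1, f2⟩ := shr_cf3 (v' := v) h0 le_rfl hV
  have g1 : shr (fun l : Fin M => √(d l.val)) Finset.univ = 1 := by
    rw [← lev_self M, shr_lev hd le_rfl, hM]
  have h := kpath_lower (n := n) b (fun l : Fin M => √(d l.val)) (cf3 V v v) s c (S := S)
    (BL := lev M) (FL := {0}) (N := N) hl hη hx (lev_mono M)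
  rw [hb.kl _ _ g1 f2] at h
  refine le_trans (le_of_eq ?_) h
  refine Finset.sum_congr rfl fun l hl' => ?_
  have h1 : l + 1 ≤ M := by
    have := Finset.mem_range.1 hl'
    omega
  rw [hb.q2 _ _ g1 f2, shr_lev hd h1, shr_lev hd (by omega : l ≤ M), f0,
    Finset.sum_range_succ]
  ring

/-- the hidden rows, the rest of the fields -/
lemma stageC_le (hl : 0 < lam) (hη : 0 ≤ η) {LB LF : Type} [Fintype LB] [DecidableEq LB]
    [Fintype LF] [DecidableEq LF] (cB : LB → ℝ) (cF : LF → ℝ) (hn : 0 < n)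
    (BL : Finset LB) (FL' : Finset LF) (S : Finset (Fin n)) :
    Q2 n b cB cF s lam η c x Finset.univ (Kset Finset.univ BL FL') -
        Q2 n b cB cF s lam η c x S (Kset Finset.univ BL FL') ≤
      2 * ((n - S.card : ℝ) / n) *
        Q2 n b cB cF s lam η c x Finset.univ (Kset Finset.univ BL FL') ∧
    Q1 n b cB cF s lam η c x Finset.univ (Kset Finset.univ BL FL') -
        Q1 n b cB cF s lam η c x S (Kset Finset.univ BL FL') =
      ((n - S.card : ℝ) / n) *
        Q1 n b cB cF s lam η c x Finset.univ (Kset Finset.univ BL FL') ∧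
    0 ≤ Q1 n b cB cF s lam η c x S (Kset Finset.univ BL FL') ∧
    Q1 n b cB cF s lam η c x S (Kset Finset.univ BL FL') ≤
      Q1 n b cB cF s lam η c x Finset.univ (Kset Finset.univ BL FL') := by
  have h := lev_sk (n := n) b cB cF s c hl hη
  have hn' : (0 : ℝ) < n := Nat.cast_pos.2 hn
  set K1 : Finset (Co n LB LF) := Kset Finset.univ BL FL' with hK1
  have hs : ∀ (π : Equiv.Perm (Fin n)) e, cP LB LF π e ∈ K1 ↔ e ∈ K1 :=
    fun π e => cP_memK π (fun _ => iff_of_true (Finset.mem_univ _) (Finset.mem_univ _)) e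
  have h3 := sum_const_sites (f := fun i => en x (Fm n b cB cF s lam η c)
    (H196.avm (H475.muA (Xs n) lam η c) 1 (Sm b cB cF s η) fun w => sp w.2 i) K1)
    (fun π i => h.en1 x π (hs π) i) S
  have h4 := sum_touch (f := fun p => en x (Fm n b cB cF s lam η c)
    (H196.avm (H475.muA (Xs n) lam η c) 1 (Sm b cB cF s η) fun w => SkS p w.2) K1)
    (fun π p => h.en2 x π (hs π) p) (fun p => en_nonneg h.lip x _ K1) S
  rw [← q2_eq b cB cF s c hl hη, ← q2_eq b cB cF s c hl hη, ← q1_eq b cB cF s c hl hη,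
    ← q1_eq b cB cF s c hl hη]
  unfold q2 q1
  rw [ps_univ]
  refine ⟨?_, ?_, Finset.sum_nonneg fun i _ => en_nonneg h.lip x _ K1, ?_⟩
  · have e1 : 2 * ((n - S.card : ℝ) / n) * ∑ p, en x (Fm n b cB cF s lam η c)
        (H196.avm (H475.muA (Xs n) lam η c) 1 (Sm b cB cF s η) fun w => SkS p w.2) K1 =
        (2 * (n - S.card : ℝ) * ∑ p, en x (Fm n b cB cF s lam η c)
        (H196.avm (H475.muA (Xs n) lam η c) 1 (Sm b cB cF s η) fun w => SkS p w.2) K1) / n := by
      ring
    rw [e1, le_div_iff₀ hn', mul_comm]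
    exact h4
  · have e2 : ∑ i ∈ S, en x (Fm n b cB cF s lam η c)
        (H196.avm (H475.muA (Xs n) lam η c) 1 (Sm b cB cF s η) fun w => sp w.2 i) K1 =
        (S.card * ∑ i, en x (Fm n b cB cF s lam η c)
        (H196.avm (H475.muA (Xs n) lam η c) 1 (Sm b cB cF s η) fun w => sp w.2 i) K1) / n := by
      rw [eq_div_iff hn'.ne', mul_comm]
      exact h3
    rw [e2]
    field_simp
  · exact Finset.sum_le_sum_of_subset_of_nonneg (Finset.subset_univ _)
      fun i _ _ => en_nonneg h.lip x _ K1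

/-- the entropy path along a grid, from above -/
theorem kgrid_upper (hb : Base n b V s lam η c x K0 e2 e1) (hl : 0 < lam) (hη : 0 ≤ η)
    (hn : 0 < n) (hx : 0 < x) (h0 : 0 ≤ v) (h1 : v ≤ v') (hV : v' ≤ V) {d : ℕ → ℝ}
    (hd : ∀ l, 0 ≤ d l) {M N : ℕ} (hN : N ≤ M) (hM : ∑ l ∈ Finset.range M, d l = 1) :
    K0 ≤ x ^ 2 / 2 * v * e1 S 0 v +
      ∑ l ∈ Finset.range N, x ^ 2 * b ^ 2 / (2 * n) * d l *
        e2 S (∑ i ∈ Finset.range (l + 1), d i) v +
      x ^ 2 / 2 * (b ^ 2 / n * (∑ i ∈ Finset.range N, d i) * (2 * ((n - S.card : ℝ) / n) *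
          e2 Finset.univ (∑ i ∈ Finset.range N, d i) v') +
        (v' * ((n - S.card : ℝ) / n) + (v' - v)) *
          e1 Finset.univ (∑ i ∈ Finset.range N, d i) v') +
      ∑ l ∈ Finset.Ico N M, x ^ 2 * b ^ 2 / (2 * n) * d l *
        e2 Finset.univ (∑ i ∈ Finset.range (l + 1), d i) v' +
      x ^ 2 / 2 * (n * (V - v' + s ^ 2 * (1 + η) ^ 2)) := by
  obtain ⟨f0, f1, f2⟩ := shr_cf3 h0 h1 hV
  set cB : Fin M → ℝ := fun l => √(d l.val) with hcB
  have g1 : shr cB Finset.univ = 1 := by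
    rw [← lev_self M, hcB, shr_lev hd le_rfl, hM]
  have gk : ∀ k, k ≤ M → shr cB (lev M k) = ∑ i ∈ Finset.range k, d i := fun k hk =>
    shr_lev hd hk
  have h := kpath_upper (n := n) b cB (cf3 V v v') s c (S := S)
    (BL := lev M) (FL := {0}) (FL' := {0, 1}) (N := N) (N' := M) hl hη hx (lev_mono M)
    (lev_zero M) hN (lev_self M) (by simp)
  obtain ⟨c1, c2, c3, c4⟩ := stageC_le (b := b) (s := s) (c := c) (x := x) hl hη cB
    (cf3 V v v') hn (lev M N) {0, 1} S
  rw [hb.kl _ _ g1 f2, f0, f1, f2] at h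
  rw [hb.q2 _ _ g1 f2, gk N hN, f1] at c1
  rw [hb.q1 _ _ g1 f2, gk N hN, f1] at c2 c4
  rw [hb.q2 _ _ g1 f2 Finset.univ (lev M N), hb.q1 _ _ g1 f2 Finset.univ (lev M N), gk N hN,
    f1] at h
  have hA : Q1 n b cB (cf3 V v v') s lam η c x S (Kset S ∅ {0}) = e1 S 0 v := by
    rw [hb.q1 _ _ g1 f2, f0]
    congr 1
  rw [hA] at h
  have hB : ∑ l ∈ Finset.range N, x ^ 2 * b ^ 2 / (2 * n) *
      (shr cB (lev M (l + 1)) - shr cB (lev M l)) *
        Q2 n b cB (cf3 V v v') s lam η c x S (Kset S (lev M (l + 1)) {0}) =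
      ∑ l ∈ Finset.range N, x ^ 2 * b ^ 2 / (2 * n) * d l *
        e2 S (∑ i ∈ Finset.range (l + 1), d i) v := by
    refine Finset.sum_congr rfl fun l hl' => ?_
    have h2 : l + 1 ≤ M := by
      have := Finset.mem_range.1 hl'
      omega
    rw [hb.q2 _ _ g1 f2, gk _ h2, gk _ (by omega : l ≤ M), f0, Finset.sum_range_succ]
    ring
  have hC : ∑ l ∈ Finset.Ico N M, x ^ 2 * b ^ 2 / (2 * n) *
      (shr cB (lev M (l + 1)) - shr cB (lev M l)) *
        Q2 n b cB (cf3 V v v') s lam η c x Finset.univ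
          (Kset Finset.univ (lev M (l + 1)) {0, 1}) =
      ∑ l ∈ Finset.Ico N M, x ^ 2 * b ^ 2 / (2 * n) * d l *
        e2 Finset.univ (∑ i ∈ Finset.range (l + 1), d i) v' := by
    refine Finset.sum_congr rfl fun l hl' => ?_
    have h2 : l + 1 ≤ M := by
      have := (Finset.mem_Ico.1 hl').2
      omega
    rw [hb.q2 _ _ g1 f2, gk _ h2, gk _ (by omega : l ≤ M), f1, Finset.sum_range_succ]
    ring
  rw [hB, hC] at h
  refine h.trans ?_
  have hn' : (0 : ℝ) < n := Nat.cast_pos.2 hn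
  have t0 : 0 ≤ ∑ i ∈ Finset.range N, d i := Finset.sum_nonneg fun i _ => hd i
  have m1 : b ^ 2 / n * (∑ i ∈ Finset.range N, d i) *
      (e2 Finset.univ (∑ i ∈ Finset.range N, d i) v' -
        Q2 n b cB (cf3 V v v') s lam η c x S (Kset Finset.univ (lev M N) {0, 1})) ≤
      b ^ 2 / n * (∑ i ∈ Finset.range N, d i) * (2 * ((n - S.card : ℝ) / n) *
          e2 Finset.univ (∑ i ∈ Finset.range N, d i) v') :=
    mul_le_mul_of_nonneg_left c1 (mul_nonneg (by positivity) t0)
  have m3 : (v' - v) * Q1 n b cB (cf3 V v v') s lam η c x S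
      (Kset Finset.univ (lev M N) {0, 1}) ≤
      (v' - v) * e1 Finset.univ (∑ i ∈ Finset.range N, d i) v' :=
    mul_le_mul_of_nonneg_left c4 (by linarith)
  have m4 : x ^ 2 / 2 * (b ^ 2 / n * (∑ i ∈ Finset.range N, d i) *
      (e2 Finset.univ (∑ i ∈ Finset.range N, d i) v' -
        Q2 n b cB (cf3 V v v') s lam η c x S (Kset Finset.univ (lev M N) {0, 1})) +
      v' * (e1 Finset.univ (∑ i ∈ Finset.range N, d i) v' -
        Q1 n b cB (cf3 V v v') s lam η c x S (Kset Finset.univ (lev M N) {0, 1})) +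
      (v' - v) * Q1 n b cB (cf3 V v v') s lam η c x S
        (Kset Finset.univ (lev M N) {0, 1})) ≤
      x ^ 2 / 2 * (b ^ 2 / n * (∑ i ∈ Finset.range N, d i) * (2 * ((n - S.card : ℝ) / n) *
          e2 Finset.univ (∑ i ∈ Finset.range N, d i) v') +
        (v' * ((n - S.card : ℝ) / n) + (v' - v)) *
          e1 Finset.univ (∑ i ∈ Finset.range N, d i) v') := by
    refine mul_le_mul_of_nonneg_left ?_ (by positivity)
    rw [c2]
    linarith
  linarith

/-- the increments of the two-piece grid -/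
noncomputable def dd (t : ℝ) (N l : ℕ) : ℝ := if l < N then t / N else (1 - t) / N

lemma dd_nonneg {t : ℝ} (h0 : 0 ≤ t) (h1 : t ≤ 1) (N l : ℕ) : 0 ≤ dd t N l := by
  unfold dd
  split_ifs
  · positivity
  · exact div_nonneg (by linarith) (Nat.cast_nonneg N)

lemma sum_dd_le (t : ℝ) {N l : ℕ} (hl : l ≤ N) :
    ∑ i ∈ Finset.range l, dd t N i = (t - 0) / N * (l : ℝ) := by
  have : ∀ i ∈ Finset.range l, dd t N i = t / N := fun i hi => by
    have := Finset.mem_range.1 hi
    unfold dd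
    rw [if_pos (by omega)]
  rw [Finset.sum_congr rfl this, Finset.sum_const, Finset.card_range, nsmul_eq_mul]
  ring

lemma sum_dd_ge (t : ℝ) {N : ℕ} (hN : 0 < N) (j : ℕ) :
    ∑ i ∈ Finset.range (N + j), dd t N i = t + (1 - t) / N * (j : ℝ) := by
  have hN' : (N : ℝ) ≠ 0 := (Nat.cast_pos.2 hN).ne'
  rw [Finset.sum_range_add, sum_dd_le t le_rfl]
  have : ∀ i ∈ Finset.range j, dd t N (N + i) = (1 - t) / N := fun i _ => by
    unfold dd
    rw [if_neg (by omega)]
  rw [Finset.sum_congr rfl this, Finset.sum_const, Finset.card_range, nsmul_eq_mul, sub_zero,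
    div_mul_cancel₀ _ hN']
  ring

/-- **The K-path from below, with an integral.** -/
theorem kint_lower (hb : Base n b V s lam η c x K0 e2 e1) (hl : 0 < lam) (hη : 0 ≤ η)
    (hx : 0 < x) (h0 : 0 ≤ v) (hV : v ≤ V) {t : ℝ} (ht0 : 0 ≤ t) (ht1 : t ≤ 1)
    (hm : MonotoneOn (fun u => e2 S u v) (Set.Icc 0 t)) :
    x ^ 2 * b ^ 2 / (2 * n) * ∫ u in (0 : ℝ)..t, e2 S u v ≤ K0 := by
  set C : ℝ := x ^ 2 * b ^ 2 / (2 * n) with hC
  have hC0 : 0 ≤ C := by positivity
  set Δ : ℝ := t * (e2 S t v - e2 S 0 v) with hΔ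
  have key : ∀ N : ℕ, 0 < N → C * ∫ u in (0 : ℝ)..t, e2 S u v ≤ K0 + C * Δ * (1 / (N : ℝ)) := by
    intro N hN
    have hM : ∑ l ∈ Finset.range (N + N), dd t N l = 1 := by
      rw [sum_dd_ge t hN, div_mul_cancel₀ _ (Nat.cast_pos.2 hN).ne']
      ring
    have h1 := kgrid_lower (S := S) hb hl hη hx h0 hV (dd_nonneg ht0 ht1 N)
      (Nat.le_add_right N N) hM
    have h2 := riemann_dn (g := fun u => e2 S u v) ht0 hm hN
    have h3 : ∑ l ∈ Finset.range N, x ^ 2 * b ^ 2 / (2 * n) * dd t N l *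
        e2 S (∑ i ∈ Finset.range l, dd t N i) v =
        C * ∑ l ∈ Finset.range N, (t - 0) / N * e2 S (0 + (t - 0) / N * (l : ℝ)) v := by
      rw [Finset.mul_sum]
      refine Finset.sum_congr rfl fun l hl' => ?_
      have h4 := Finset.mem_range.1 hl'
      rw [sum_dd_le t h4.le]
      unfold dd
      rw [if_pos h4, sub_zero, zero_add]
      ring
    rw [h3] at h1
    have h4 := mul_le_mul_of_nonneg_left h2 hC0
    have h5 : C * ((∫ u in (0 : ℝ)..t, e2 S u v) - (t - 0) / N * (e2 S t v - e2 S 0 v)) =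
        C * (∫ u in (0 : ℝ)..t, e2 S u v) - C * Δ * (1 / (N : ℝ)) := by
      rw [hΔ]
      ring
    rw [h5] at h4
    linarith
  have hlim : Filter.Tendsto (fun N : ℕ => K0 + C * Δ * (1 / (N : ℝ))) Filter.atTop
      (nhds (K0 + C * Δ * 0)) :=
    tendsto_const_nhds.add (tendsto_one_div_atTop_nhds_zero_nat.const_mul _)
  have := ge_of_tendsto hlim (by
    filter_upwards [Filter.eventually_gt_atTop 0] with N hN using key N hN)
  simpa using this

/-- **The K-path from above, with integrals.** -/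
theorem kint_upper (hb : Base n b V s lam η c x K0 e2 e1) (hl : 0 < lam) (hη : 0 ≤ η)
    (hn : 0 < n) (hx : 0 < x) (h0 : 0 ≤ v) (h1 : v ≤ v') (hV : v' ≤ V) {t : ℝ} (ht0 : 0 ≤ t)
    (ht1 : t ≤ 1) (hm : MonotoneOn (fun u => e2 S u v) (Set.Icc 0 t))
    (hm' : MonotoneOn (fun u => e2 Finset.univ u v') (Set.Icc t 1)) :
    K0 ≤ x ^ 2 / 2 * v * e1 S 0 v +
      x ^ 2 * b ^ 2 / (2 * n) * (∫ u in (0 : ℝ)..t, e2 S u v) +
      x ^ 2 / 2 * (b ^ 2 / n * t * (2 * ((n - S.card : ℝ) / n) * e2 Finset.univ t v') +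
        (v' * ((n - S.card : ℝ) / n) + (v' - v)) * e1 Finset.univ t v') +
      x ^ 2 * b ^ 2 / (2 * n) * (∫ u in t..1, e2 Finset.univ u v') +
      x ^ 2 / 2 * (n * (V - v' + s ^ 2 * (1 + η) ^ 2)) := by
  set C : ℝ := x ^ 2 * b ^ 2 / (2 * n) with hC
  have hC0 : 0 ≤ C := by positivity
  set Δ : ℝ := t * (e2 S t v - e2 S 0 v) +
    (1 - t) * (e2 Finset.univ 1 v' - e2 Finset.univ t v') with hΔ
  set R : ℝ := x ^ 2 / 2 * v * e1 S 0 v +
      C * (∫ u in (0 : ℝ)..t, e2 S u v) +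
      x ^ 2 / 2 * (b ^ 2 / n * t * (2 * ((n - S.card : ℝ) / n) * e2 Finset.univ t v') +
        (v' * ((n - S.card : ℝ) / n) + (v' - v)) * e1 Finset.univ t v') +
      C * (∫ u in t..1, e2 Finset.univ u v') +
      x ^ 2 / 2 * (n * (V - v' + s ^ 2 * (1 + η) ^ 2)) with hR
  have key : ∀ N : ℕ, 0 < N → K0 ≤ R + C * Δ * (1 / (N : ℝ)) := by
    intro N hN
    have hN' : (N : ℝ) ≠ 0 := (Nat.cast_pos.2 hN).ne'
    have hM : ∑ l ∈ Finset.range (N + N), dd t N l = 1 := by
      rw [sum_dd_ge t hN, div_mul_cancel₀ _ hN']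
      ring
    have e0 := kgrid_upper (S := S) hb hl hη hn hx h0 h1 hV (dd_nonneg ht0 ht1 N)
      (Nat.le_add_right N N) hM
    have r1 := riemann_up (g := fun u => e2 S u v) ht0 hm hN
    have r2 := riemann_up (g := fun u => e2 Finset.univ u v') ht1 hm' hN
    have s1 : ∑ l ∈ Finset.range N, x ^ 2 * b ^ 2 / (2 * n) * dd t N l *
        e2 S (∑ i ∈ Finset.range (l + 1), dd t N i) v =
        C * ∑ l ∈ Finset.range N, (t - 0) / N *
          e2 S (0 + (t - 0) / N * ((l + 1 : ℕ) : ℝ)) v := by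
      rw [Finset.mul_sum]
      refine Finset.sum_congr rfl fun l hl' => ?_
      have h4 := Finset.mem_range.1 hl'
      rw [sum_dd_le t (by omega : l + 1 ≤ N)]
      unfold dd
      rw [if_pos h4, sub_zero, zero_add]
      ring
    have s2 : ∑ l ∈ Finset.Ico N (N + N), x ^ 2 * b ^ 2 / (2 * n) * dd t N l *
        e2 Finset.univ (∑ i ∈ Finset.range (l + 1), dd t N i) v' =
        C * ∑ l ∈ Finset.range N, (1 - t) / N *
          e2 Finset.univ (t + (1 - t) / N * ((l + 1 : ℕ) : ℝ)) v' := by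
      rw [Finset.sum_Ico_eq_sum_range, Nat.add_sub_cancel, Finset.mul_sum]
      refine Finset.sum_congr rfl fun l _ => ?_
      rw [add_assoc N l 1, sum_dd_ge t hN]
      unfold dd
      rw [if_neg (by omega)]
      ring
    have s3 : ∑ i ∈ Finset.range N, dd t N i = t := by
      rw [sum_dd_le t le_rfl, sub_zero, div_mul_cancel₀ _ hN']
    rw [s1, s2, s3] at e0
    have m1 := mul_le_mul_of_nonneg_left r1 hC0
    have m2 := mul_le_mul_of_nonneg_left r2 hC0
    have e1' : C * ((∫ u in (0 : ℝ)..t, e2 S u v) + (t - 0) / N * (e2 S t v - e2 S 0 v)) +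
        C * ((∫ u in t..1, e2 Finset.univ u v') +
          (1 - t) / N * (e2 Finset.univ 1 v' - e2 Finset.univ t v')) =
        C * (∫ u in (0 : ℝ)..t, e2 S u v) + C * (∫ u in t..1, e2 Finset.univ u v') +
          C * Δ * (1 / (N : ℝ)) := by
      rw [hΔ]
      ring
    rw [hR]
    linarith
  have hlim : Filter.Tendsto (fun N : ℕ => R + C * Δ * (1 / (N : ℝ))) Filter.atTop
      (nhds (R + C * Δ * 0)) :=
    tendsto_const_nhds.add (tendsto_one_div_atTop_nhds_zero_nat.const_mul _)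
  have := ge_of_tendsto hlim (by
    filter_upwards [Filter.eventually_gt_atTop 0] with N hN using key N hN)
  simpa using this

end grid

end Vale.Agent.P146.H119
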