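import Vale.Agent.P146.H119.KrowC
import Vale.Agent.P146.H347.Mod3

/-!
# P146: the entropy path along the revealed sets `Kset S BL FL` of the levelled model (KPATH)

`en x F A K = E_x (cx K A)^2`; `Lev` : a functional of bonds and fields with levels, symmetric under
the permutations of the sites, gradient `cb l * A2 p`, `cf l * A1 i` on the plain coordinates.

* `stage_le`, `le_stage`: `ent (Kset S BL' FL') - ent (Kset S BL FL)` from both sides;
* `rows_le`: the rows of the hidden sites cost at most `m/n (2 sb/tau' + sf/v')` times the entropy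
  of the coordinates which are still hidden;
* `path_le`: `KL F x` from above by `ent (Kset S BL FL)` plus the near end.
-/

open MeasureTheory ProbabilityTheory

namespace Vale.Agent.P146.H119

open Vale.Agent.P157.Lv hiding Dep
open Vale.Agent.P146.H425 Vale.Agent.P146.H646

set_option linter.unusedSectionVars false

section gen

variable {κ : Type} [Fintype κ] [DecidableEq κ] {F A : (κ → ℝ) → ℝ} {x : ℝ} {K K' : Finset κ}
  {D : κ → (κ → ℝ) → ℝ} {B L : ℝ}

/-- the energy of the conditional mean of `A` given the coordinates in `K` -/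
noncomputable def en (x : ℝ) (F A : (κ → ℝ) → ℝ) (K : Finset κ) : ℝ :=
  ex (gm κ) (fun z => Real.exp (x * F z)) fun z =>
    cx (gm κ) K (fun z => Real.exp (x * F z)) A z ^ 2

lemma en_nonneg (hF : Lip F) (x : ℝ) (A : (κ → ℝ) → ℝ) (K : Finset κ) : 0 ≤ en x F A K :=
  div_nonneg (integral_nonneg fun _ => mul_nonneg (Real.exp_pos _).le (sq_nonneg _))
    (wt_exp hF x).tot_pos.le

lemma en_mono (hF : Lip F) (x : ℝ) (hA : BM A) (hK : K ⊆ K') : en x F A K ≤ en x F A K' :=
  ex_cx_sq_mono (wt_exp hF x) hK hA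

lemma en_mul (x : ℝ) {D : (κ → ℝ) → ℝ} {c : ℝ} (h : ∀ z, D z = c * A z) (K : Finset κ) :
    en x F D K = c ^ 2 * en x F A K := by
  have e1 : ∀ z, cx (gm κ) K (fun z => Real.exp (x * F z)) D z =
      c * cx (gm κ) K (fun z => Real.exp (x * F z)) A z := by
    intro z
    unfold cx
    rw [← mul_div_assoc, ← integral_const_mul]
    congr 1
    refine integral_congr_ae (Filter.Eventually.of_forall fun z' => ?_)
    simp only [h]
    ring
  unfold en ex
  rw [← mul_div_assoc, ← integral_const_mul]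
  congr 1
  refine integral_congr_ae (Filter.Eventually.of_forall fun z' => ?_)
  simp only [e1]
  ring

lemma ex_sum_en (hF : Lip F) (x : ℝ) (hD : ∀ e, BM (D e)) (s K : Finset κ) :
    ex (gm κ) (fun z => Real.exp (x * F z)) (fun z => ∑ e ∈ s,
      cx (gm κ) K (fun z => Real.exp (x * F z)) (D e) z ^ 2) = ∑ e ∈ s, en x F (D e) K := by
  have hw := wt_exp hF x
  unfold en ex
  rw [← Finset.sum_div]
  congr 1
  rw [← integral_finsetSum _ fun e _ => hw.int_mul (by
    have h := hw.bm_cx K (hD e)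
    simpa only [sq] using h.mul h)]
  refine integral_congr_ae (Filter.Eventually.of_forall fun z => ?_)
  simp only
  rw [Finset.mul_sum]

/-- the stage `K → K'`, from above -/
theorem ent_up (h : C11 F D B L) (hx : 0 < x) (hK : K ⊆ K') : ent x F K' - ent x F K ≤
    x ^ 2 / 2 * (∑ e ∈ K', en x F (D e) K' - ∑ e ∈ K, en x F (D e) K') := by
  have hF : Lip F := h.lip.lip h.B0
  have h1 := ent_upper h hx hK
  rw [ex_sum_en hF x (fun e => ⟨h.meas e, B, h.bd e⟩)] at h1
  rw [← Finset.sum_sdiff hK]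
  simpa using h1

/-- the stage `K → K'`, from below -/
theorem ent_dn (h : C11 F D B L) (hx : 0 < x) (hK : K ⊆ K') : x ^ 2 / 2 *
    (∑ e ∈ K', en x F (D e) K - ∑ e ∈ K, en x F (D e) K) ≤ ent x F K' - ent x F K := by
  have hF : Lip F := h.lip.lip h.B0
  have h1 := ent_ge_sq h hx hK
  rw [ex_sum_en hF x (fun e => ⟨h.meas e, B, h.bd e⟩)] at h1
  rw [← Finset.sum_sdiff hK]
  simpa using h1

end gen

section lev

open Vale.Agent.P146.H347 Vale.Agent.P146.H816 Vale.Agent.P146.H325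

variable {n : ℕ} {LB LF : Type} [Fintype LB] [DecidableEq LB] [Fintype LF] [DecidableEq LF]

/-- the bonds inside `S` -/
def ps (S : Finset (Fin n)) : Finset (Pair n) :=
  Finset.univ.filter fun p => p.1.1 ∈ S ∧ p.1.2 ∈ S

lemma mem_ps {S : Finset (Fin n)} {p : Pair n} : p ∈ ps S ↔ p.1.1 ∈ S ∧ p.1.2 ∈ S := by
  simp [ps]

lemma ps_univ : ps (Finset.univ : Finset (Fin n)) = Finset.univ := by
  ext p
  simp [mem_ps]

lemma ps_mono {S S' : Finset (Fin n)} (h : S ⊆ S') : ps S ⊆ ps S' := by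
  intro p hp
  rw [mem_ps] at hp ⊢
  exact ⟨h hp.1, h hp.2⟩

lemma Kset_eq (S : Finset (Fin n)) (BL : Finset LB) (FL : Finset LF) :
    Kset S BL FL = ((ps S ×ˢ BL).disjSum (S ×ˢ FL)).disjSum ∅ := by
  ext e
  rcases e with (⟨p, l⟩ | ⟨i, l⟩) | j
  · rw [bd_memK]
    simp [mem_ps]
  · rw [fd_memK]
    simp
  · refine iff_of_false (gd_memK j) ?_
    simp

/-- sums over the revealed set -/
theorem sum_Kset (S : Finset (Fin n)) (BL : Finset LB) (FL : Finset LF)
    (f : Co n LB LF → ℝ) : ∑ e ∈ Kset S BL FL, f e =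
      ∑ p ∈ ps S, ∑ l ∈ BL, f (bd LF p l) + ∑ i ∈ S, ∑ l ∈ FL, f (fd LB i l) := by
  rw [Kset_eq, Finset.sum_disjSum, Finset.sum_disjSum, Finset.sum_product, Finset.sum_product,
    Finset.sum_empty, add_zero]

/-- A functional of bonds and fields with levels, symmetric under permutations of the sites. -/
structure Lev (F : (Co n LB LF → ℝ) → ℝ) (D : Co n LB LF → (Co n LB LF → ℝ) → ℝ) (B L : ℝ)
    (cb : LB → ℝ) (cf : LF → ℝ) (A2 : Pair n → (Co n LB LF → ℝ) → ℝ)
    (A1 : Fin n → (Co n LB LF → ℝ) → ℝ) : Prop where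
  c11 : C11 F D B L
  Db : ∀ p l z, D (bd LF p l) z = cb l * A2 p z
  Df : ∀ i l z, D (fd LB i l) z = cf l * A1 i z
  inv : InvP F
  e2 : ∀ π p z, A2 p (acP π z) = A2 (pf π p) z
  e1 : ∀ π i z, A1 i (acP π z) = A1 (π i) z
  b2 : ∀ p, BM (A2 p)
  b1 : ∀ i, BM (A1 i)

/-- the energy of the bonds inside `S` -/
noncomputable def q2 (x : ℝ) (F : (Co n LB LF → ℝ) → ℝ) (A2 : Pair n → (Co n LB LF → ℝ) → ℝ)
    (S : Finset (Fin n)) (K : Finset (Co n LB LF)) : ℝ := ∑ p ∈ ps S, en x F (A2 p) K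

/-- the energy of the fields of `S` -/
noncomputable def q1 (x : ℝ) (F : (Co n LB LF → ℝ) → ℝ) (A1 : Fin n → (Co n LB LF → ℝ) → ℝ)
    (S : Finset (Fin n)) (K : Finset (Co n LB LF)) : ℝ := ∑ i ∈ S, en x F (A1 i) K

/-- total share -/
noncomputable def sh {LL : Type} (c : LL → ℝ) (T : Finset LL) : ℝ := ∑ l ∈ T, c l ^ 2

lemma sh_nonneg {LL : Type} (c : LL → ℝ) (T : Finset LL) : 0 ≤ sh c T :=
  Finset.sum_nonneg fun _ _ => sq_nonneg _

variable {F : (Co n LB LF → ℝ) → ℝ} {D : Co n LB LF → (Co n LB LF → ℝ) → ℝ} {B L : ℝ}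
  {cb : LB → ℝ} {cf : LF → ℝ} {A2 : Pair n → (Co n LB LF → ℝ) → ℝ}
  {A1 : Fin n → (Co n LB LF → ℝ) → ℝ} {x : ℝ} {S S' : Finset (Fin n)} {BL BL' : Finset LB}
  {FL FL' : Finset LF} {K K' : Finset (Co n LB LF)}

section

variable (h : Lev F D B L cb cf A2 A1)
include h

lemma Lev.lip : Lip F := h.c11.lip.lip h.c11.B0

lemma Lev.q2_nonneg (x : ℝ) (S : Finset (Fin n)) (K : Finset (Co n LB LF)) :
    0 ≤ q2 x F A2 S K := Finset.sum_nonneg fun _ _ => en_nonneg h.lip x _ _

lemma Lev.q1_nonneg (x : ℝ) (S : Finset (Fin n)) (K : Finset (Co n LB LF)) :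
    0 ≤ q1 x F A1 S K := Finset.sum_nonneg fun _ _ => en_nonneg h.lip x _ _

/-- monotonicity in the set of sites and in the revealed set -/
lemma Lev.q2_mono (x : ℝ) (hS : S ⊆ S') (hK : K ⊆ K') : q2 x F A2 S K ≤ q2 x F A2 S' K' :=
  (Finset.sum_le_sum_of_subset_of_nonneg (ps_mono hS) fun _ _ _ => en_nonneg h.lip x _ _).trans
    (Finset.sum_le_sum fun p _ => en_mono h.lip x (h.b2 p) hK)

lemma Lev.q1_mono (x : ℝ) (hS : S ⊆ S') (hK : K ⊆ K') : q1 x F A1 S K ≤ q1 x F A1 S' K' :=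
  (Finset.sum_le_sum_of_subset_of_nonneg hS fun _ _ _ => en_nonneg h.lip x _ _).trans
    (Finset.sum_le_sum fun i _ => en_mono h.lip x (h.b1 i) hK)

lemma Lev.sum_en (x : ℝ) (S : Finset (Fin n)) (BL : Finset LB) (FL : Finset LF)
    (K : Finset (Co n LB LF)) : ∑ e ∈ Kset S BL FL, en x F (D e) K =
      sh cb BL * q2 x F A2 S K + sh cf FL * q1 x F A1 S K := by
  rw [sum_Kset]
  unfold sh q2 q1
  congr 1
  · rw [Finset.mul_sum]
    refine Finset.sum_congr rfl fun p _ => ?_
    rw [Finset.sum_mul]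
    exact Finset.sum_congr rfl fun l _ => en_mul x (h.Db p l) K
  · rw [Finset.mul_sum]
    refine Finset.sum_congr rfl fun i _ => ?_
    rw [Finset.sum_mul]
    exact Finset.sum_congr rfl fun l _ => en_mul x (h.Df i l) K

/-- one stage of the path, from above -/
theorem Lev.stage_le (hx : 0 < x) (hB : BL ⊆ BL') (hF : FL ⊆ FL') :
    ent x F (Kset S BL' FL') - ent x F (Kset S BL FL) ≤ x ^ 2 / 2 *
      ((sh cb BL' - sh cb BL) * q2 x F A2 S (Kset S BL' FL') +
        (sh cf FL' - sh cf FL) * q1 x F A1 S (Kset S BL' FL')) := by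
  refine (ent_up h.c11 hx (Kset_mono (Finset.Subset.refl S) hB hF)).trans (le_of_eq ?_)
  rw [h.sum_en, h.sum_en]
  ring

/-- one stage of the path, from below -/
theorem Lev.le_stage (hx : 0 < x) (hB : BL ⊆ BL') (hF : FL ⊆ FL') : x ^ 2 / 2 *
      ((sh cb BL' - sh cb BL) * q2 x F A2 S (Kset S BL FL) +
        (sh cf FL' - sh cf FL) * q1 x F A1 S (Kset S BL FL)) ≤
    ent x F (Kset S BL' FL') - ent x F (Kset S BL FL) := by
  refine le_trans (le_of_eq ?_)
    (ent_dn h.c11 hx (Kset_mono (Finset.Subset.refl S) hB hF))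
  rw [h.sum_en, h.sum_en]
  ring

/-- the rows of the hidden sites -/
theorem Lev.rows_up (hx : 0 < x) : ent x F (Kset Finset.univ BL FL) - ent x F (Kset S BL FL) ≤
    x ^ 2 / 2 * (sh cb BL * (q2 x F A2 Finset.univ (Kset Finset.univ BL FL) -
        q2 x F A2 S (Kset Finset.univ BL FL)) +
      sh cf FL * (q1 x F A1 Finset.univ (Kset Finset.univ BL FL) -
        q1 x F A1 S (Kset Finset.univ BL FL))) := by
  refine (ent_up h.c11 hx (Kset_mono (Finset.subset_univ S) (Finset.Subset.refl BL)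
    (Finset.Subset.refl FL))).trans (le_of_eq ?_)
  rw [h.sum_en, h.sum_en]
  ring

/-- the coordinates which are still hidden -/
theorem Lev.le_end (hx : 0 < x) (BL : Finset LB) (FL : Finset LF) : x ^ 2 / 2 *
      ((sh cb Finset.univ - sh cb BL) * q2 x F A2 Finset.univ (Kset Finset.univ BL FL) +
        (sh cf Finset.univ - sh cf FL) * q1 x F A1 Finset.univ (Kset Finset.univ BL FL)) ≤
    ent x F Finset.univ - ent x F (Kset Finset.univ BL FL) := by
  have h1 := h.le_stage (S := Finset.univ) hx (Finset.subset_univ BL) (Finset.subset_univ FL)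
  have h2 := ent_mono h.lip x (Finset.subset_univ
    (Kset (Finset.univ : Finset (Fin n)) (Finset.univ : Finset LB) (Finset.univ : Finset LF)))
  linarith

lemma Lev.en1 (x : ℝ) (π : Equiv.Perm (Fin n)) (hK : ∀ e, cP LB LF π e ∈ K ↔ e ∈ K)
    (i : Fin n) : en x F (A1 (π i)) K = en x F (A1 i) K := by
  have hw : InvP fun z => Real.exp (x * F z) := fun π z => by simp only [h.inv π z]
  have h1 := ex_P hw π (fun z => cx (gm _) K (fun z => Real.exp (x * F z)) (A1 i) z ^ 2)
  unfold en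
  rw [← h1]
  congr 1
  funext z
  have h2 := cx_P hw hK (A1 i) z
  simp only [h.e1] at h2
  rw [h2]

lemma Lev.en2 (x : ℝ) (π : Equiv.Perm (Fin n)) (hK : ∀ e, cP LB LF π e ∈ K ↔ e ∈ K)
    (p : Pair n) : en x F (A2 (pf π p)) K = en x F (A2 p) K := by
  have hw : InvP fun z => Real.exp (x * F z) := fun π z => by simp only [h.inv π z]
  have h1 := ex_P hw π (fun z => cx (gm _) K (fun z => Real.exp (x * F z)) (A2 p) z ^ 2)
  unfold en
  rw [← h1]
  congr 1
  funext z
  have h2 := cx_P hw hK (A2 p) z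
  simp only [h.e2] at h2
  rw [h2]

end

/-- a function of the sites invariant under all the permutations is constant -/
lemma sum_const_sites {f : Fin n → ℝ} (hf : ∀ (π : Equiv.Perm (Fin n)) i, f (π i) = f i)
    (S : Finset (Fin n)) : n * ∑ i ∈ S, f i = S.card * ∑ i, f i := by
  rcases isEmpty_or_nonempty (Fin n) with h0 | ⟨⟨i0⟩⟩
  · have : S = ∅ := Finset.eq_empty_of_isEmpty S
    subst this
    simp
  · have h1 : ∀ i, f i = f i0 := fun i => by
      have := hf (Equiv.swap i0 i) i0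
      rwa [Equiv.swap_apply_left] at this
    simp only [h1, Finset.sum_const, nsmul_eq_mul, Finset.card_univ, Fintype.card_fin]
    ring

/-- double counting -/
lemma sum_rows (f : Pair n → ℝ) : ∑ i, ∑ p ∈ row i, f p = 2 * ∑ p, f p := by
  simp only [row, Finset.sum_filter]
  rw [Finset.sum_comm, Finset.mul_sum]
  refine Finset.sum_congr rfl fun p _ => ?_
  have h1 : ∀ i, (if p.1.1 = i ∨ p.1.2 = i then f p else 0) =
      (if p.1.1 = i then f p else 0) + if p.1.2 = i then f p else 0 := by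
    intro i
    have h0 : p.1.1 ≠ p.1.2 := p.2.ne
    by_cases h1 : p.1.1 = i
    · have h2 : p.1.2 ≠ i := fun h2 => h0 (h1.trans h2.symm)
      simp [h1, h2]
    · simp [h1]
  simp only [h1]
  rw [Finset.sum_add_distrib, Finset.sum_ite_eq, Finset.sum_ite_eq]
  simp
  ring

/-- the bonds which touch a hidden site carry at most `2 m / n` of a symmetric sum -/
lemma sum_touch {f : Pair n → ℝ} (hf : ∀ (π : Equiv.Perm (Fin n)) p, f (pf π p) = f p)
    (h0 : ∀ p, 0 ≤ f p) (S : Finset (Fin n)) :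
    n * (∑ p, f p - ∑ p ∈ ps S, f p) ≤ 2 * (n - S.card) * ∑ p, f p := by
  have h1 : ∑ p, f p - ∑ p ∈ ps S, f p ≤ ∑ i ∈ Sᶜ, ∑ p ∈ row i, f p := by
    have h2 : ∑ p, f p - ∑ p ∈ ps S, f p = ∑ p ∈ (ps S)ᶜ, f p := by
      rw [← Finset.sum_add_sum_compl (ps S) f]
      ring
    rw [h2]
    have h3 : ∀ p ∈ (ps S)ᶜ, f p ≤ ∑ i ∈ Sᶜ, if p ∈ row i then f p else 0 := by
      intro p hp
      have hnn : ∀ i ∈ Sᶜ, 0 ≤ if p ∈ row i then f p else 0 := fun i _ => by
        split_ifs
        · exact h0 p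
        · exact le_rfl
      rw [Finset.mem_compl, mem_ps, not_and_or] at hp
      rcases hp with hp | hp
      · have h4 : p ∈ row p.1.1 := mem_row.2 (Or.inl rfl)
        have h5 := Finset.single_le_sum hnn (Finset.mem_compl.2 hp)
        rwa [if_pos h4] at h5
      · have h4 : p ∈ row p.1.2 := mem_row.2 (Or.inr rfl)
        have h5 := Finset.single_le_sum hnn (Finset.mem_compl.2 hp)
        rwa [if_pos h4] at h5
    refine (Finset.sum_le_sum h3).trans ?_
    have h6 : ∑ i ∈ Sᶜ, ∑ p ∈ row i, f p =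
        ∑ p, ∑ i ∈ Sᶜ, if p ∈ row i then f p else 0 := by
      rw [Finset.sum_comm]
      refine Finset.sum_congr rfl fun i _ => ?_
      rw [← Finset.sum_filter]
      congr 1
      ext p
      simp
    rw [h6]
    refine Finset.sum_le_sum_of_subset_of_nonneg (Finset.subset_univ _) fun p _ _ => ?_
    refine Finset.sum_nonneg fun i _ => ?_
    split_ifs
    · exact h0 p
    · exact le_rfl
  have h4 : ∀ (π : Equiv.Perm (Fin n)) i, ∑ p ∈ row (π i), f p = ∑ p ∈ row i, f p := by
    intro π i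
    refine (Finset.sum_equiv (pe π) (fun p => ?_) fun p _ => ?_).symm
    · rw [pe_apply, mem_row_pf]
    · rw [pe_apply, hf]
  have h5 := sum_const_sites (f := fun i => ∑ p ∈ row i, f p) h4 Sᶜ
  rw [sum_rows, Finset.card_compl, Fintype.card_fin,
    Nat.cast_sub (by simpa using Finset.card_le_univ S)] at h5
  have h6 := mul_le_mul_of_nonneg_left h1 (Nat.cast_nonneg (α := ℝ) n)
  linarith

section

variable (h : Lev F D B L cb cf A2 A1)
include h

lemma cP_mem_univ (π : Equiv.Perm (Fin n)) (e : Co n LB LF) :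
    cP LB LF π e ∈ Kset Finset.univ BL FL ↔ e ∈ Kset Finset.univ BL FL :=
  cP_memK π (fun _ => iff_of_true (Finset.mem_univ _) (Finset.mem_univ _)) e

/-- **The rows of the hidden sites**, `m = n - |S|`. -/
theorem Lev.rows_le (hx : 0 < x) (hb : 0 < sh cb Finset.univ - sh cb BL)
    (hf : 0 < sh cf Finset.univ - sh cf FL) :
    n * (ent x F (Kset Finset.univ BL FL) - ent x F (Kset S BL FL)) ≤
      (n - S.card) * (2 * sh cb BL / (sh cb Finset.univ - sh cb BL) +
        sh cf FL / (sh cf Finset.univ - sh cf FL)) *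
        (ent x F Finset.univ - ent x F (Kset Finset.univ BL FL)) := by
  have hF := h.lip
  have h1 := h.rows_up (S := S) (BL := BL) (FL := FL) hx
  have h2 := h.le_end hx BL FL
  set K1 : Finset (Co n LB LF) := Kset Finset.univ BL FL with hK1
  have hs : ∀ (π : Equiv.Perm (Fin n)) e, cP LB LF π e ∈ K1 ↔ e ∈ K1 :=
    fun π e => cP_memK π (fun _ => iff_of_true (Finset.mem_univ _) (Finset.mem_univ _)) e
  have h3 := sum_const_sites (f := fun i => en x F (A1 i) K1)
    (fun π i => h.en1 x π (hs π) i) Sᶜ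
  have h4 := sum_touch (f := fun p => en x F (A2 p) K1) (fun π p => h.en2 x π (hs π) p)
    (fun p => en_nonneg hF x (A2 p) K1) S
  have hc : ((Sᶜ).card : ℝ) = n - S.card := by
    rw [Finset.card_compl, Fintype.card_fin,
      Nat.cast_sub (by simpa using Finset.card_le_univ S)]
  have h5 : q1 x F A1 Finset.univ K1 - q1 x F A1 S K1 = ∑ i ∈ Sᶜ, en x F (A1 i) K1 := by
    unfold q1
    rw [← Finset.sum_add_sum_compl S]
    ring
  have h6 : ∑ p, en x F (A2 p) K1 = q2 x F A2 Finset.univ K1 := by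
    unfold q2
    rw [ps_univ]
  rw [hc] at h3
  rw [h6] at h4
  have m0 : (0 : ℝ) ≤ n - S.card := by rw [← hc]; exact Nat.cast_nonneg _
  set Q2 := q2 x F A2 Finset.univ K1 with hQ2
  set Q1 := q1 x F A1 Finset.univ K1 with hQ1
  set E := ent x F Finset.univ - ent x F K1 with hE
  set β := sh cb Finset.univ - sh cb BL with hβ
  set γ := sh cf Finset.univ - sh cf FL with hγ
  have p2 : 0 ≤ Q2 := h.q2_nonneg x _ _
  have p1 : 0 ≤ Q1 := h.q1_nonneg x _ _
  have x2 : 0 < x ^ 2 / 2 := by positivity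
  -- the energies from the near end
  have a2 : x ^ 2 / 2 * Q2 ≤ E / β := by
    rw [le_div_iff₀ hb]
    nlinarith [mul_nonneg x2.le (mul_nonneg hf.le p1)]
  have a1 : x ^ 2 / 2 * Q1 ≤ E / γ := by
    rw [le_div_iff₀ hf]
    nlinarith [mul_nonneg x2.le (mul_nonneg hb.le p2)]
  have s2 := sh_nonneg cb BL
  have s1 := sh_nonneg cf FL
  have b1 : n * (Q1 - q1 x F A1 S K1) = (n - S.card) * Q1 := by
    rw [h5, h3]
    rfl
  have b2 : n * (Q2 - q2 x F A2 S K1) ≤ 2 * (n - S.card) * Q2 := h4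
  have c0 := mul_le_mul_of_nonneg_left h1 (Nat.cast_nonneg (α := ℝ) n)
  refine c0.trans ?_
  have c1 : n * (x ^ 2 / 2 * (sh cb BL * (Q2 - q2 x F A2 S K1) +
      sh cf FL * (Q1 - q1 x F A1 S K1))) = x ^ 2 / 2 * (sh cb BL * (n * (Q2 - q2 x F A2 S K1)) +
      sh cf FL * (n * (Q1 - q1 x F A1 S K1))) := by ring
  rw [c1, b1]
  have c2 : x ^ 2 / 2 * (sh cb BL * (n * (Q2 - q2 x F A2 S K1)) +
      sh cf FL * ((n - S.card) * Q1)) ≤ x ^ 2 / 2 * (sh cb BL * (2 * (n - S.card) * Q2) +
      sh cf FL * ((n - S.card) * Q1)) := by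
    refine mul_le_mul_of_nonneg_left (add_le_add ?_ le_rfl) x2.le
    exact mul_le_mul_of_nonneg_left b2 s2
  refine c2.trans ?_
  have c3 : x ^ 2 / 2 * (sh cb BL * (2 * (n - S.card) * Q2) + sh cf FL * ((n - S.card) * Q1)) =
      (n - S.card) * (2 * sh cb BL * (x ^ 2 / 2 * Q2) + sh cf FL * (x ^ 2 / 2 * Q1)) := by ring
  rw [c3, mul_assoc (n - S.card : ℝ) (2 * sh cb BL / β + sh cf FL / γ) E]
  refine mul_le_mul_of_nonneg_left ?_ m0
  have d2 := mul_le_mul_of_nonneg_left a2 (mul_nonneg zero_le_two s2)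
  have d1 := mul_le_mul_of_nonneg_left a1 s1
  have d3 : (2 * sh cb BL / β + sh cf FL / γ) * E =
      2 * sh cb BL * (E / β) + sh cf FL * (E / γ) := by ring
  rw [d3]
  exact add_le_add d2 d1

/-- **The entropy path, from above.** -/
theorem Lev.path_le (hx : 0 < x) (hn : 0 < n) (hb : 0 < sh cb Finset.univ - sh cb BL)
    (hf : 0 < sh cf Finset.univ - sh cf FL) :
    KL F x ≤ (ent x F (Kset S BL FL) - ent x F ∅) +
      (1 + (n - S.card) / n * (2 * sh cb BL / (sh cb Finset.univ - sh cb BL) +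
        sh cf FL / (sh cf Finset.univ - sh cf FL))) *
        (ent x F Finset.univ - ent x F (Kset Finset.univ BL FL)) := by
  have h1 := h.rows_le (S := S) hx hb hf
  have hn' : (0 : ℝ) < n := Nat.cast_pos.2 hn
  rw [KL_eq_ent h.lip]
  have h2 : ent x F (Kset Finset.univ BL FL) - ent x F (Kset S BL FL) ≤
      (n - S.card) / n * (2 * sh cb BL / (sh cb Finset.univ - sh cb BL) +
        sh cf FL / (sh cf Finset.univ - sh cf FL)) *
        (ent x F Finset.univ - ent x F (Kset Finset.univ BL FL)) := by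
    have e : (n - S.card : ℝ) / n * (2 * sh cb BL / (sh cb Finset.univ - sh cb BL) +
        sh cf FL / (sh cf Finset.univ - sh cf FL)) *
        (ent x F Finset.univ - ent x F (Kset Finset.univ BL FL)) =
        ((n - S.card : ℝ) * (2 * sh cb BL / (sh cb Finset.univ - sh cb BL) +
        sh cf FL / (sh cf Finset.univ - sh cf FL)) *
        (ent x F Finset.univ - ent x F (Kset Finset.univ BL FL))) / n := by ring
    rw [e, le_div_iff₀ hn']
    linarith
  linarith

/-- **The entropy path, from below.** -/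
theorem Lev.le_path (x : ℝ) (K : Finset (Co n LB LF)) : ent x F K - ent x F ∅ ≤ KL F x := by
  rw [KL_eq_ent h.lip]
  have := ent_mono h.lip x (Finset.subset_univ K)
  linarith

end

end lev

end Vale.Agent.P146.H119
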