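import Vale.Agent.P146.H119.KPath
import Vale.Agent.P146.H347.Mod4

/-!
# P146: the entropy path of the modulated SK system (K-path of the master statement)

`K3 = Kset univ (BL N) FL'`. `Lev.upper`, `Lev.lower`: general levelled functional;
`kpath_upper`, `kpath_lower`: the amplitude ensemble
`F = lzm (muA (Xs n) lam η c) 1 (Sm b cB cF s η)` in the coordinates `Co n LB LF`.
-/

open MeasureTheory ProbabilityTheory

namespace Vale.Agent.P146.H119

open Vale.Agent.P157.Lv hiding Dep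
open Vale.Agent.P146.H425 Vale.Agent.P146.H646
open Vale.Agent.P146.H347 Vale.Agent.P146.H816 Vale.Agent.P146.H325

set_option linter.unusedSectionVars false

variable {n : ℕ} {LB LF : Type} [Fintype LB] [DecidableEq LB] [Fintype LF] [DecidableEq LF]

section gen

variable {F : (Co n LB LF → ℝ) → ℝ} {D : Co n LB LF → (Co n LB LF → ℝ) → ℝ} {B L : ℝ}
  {cb : LB → ℝ} {cf : LF → ℝ} {A2 : Pair n → (Co n LB LF → ℝ) → ℝ}
  {A1 : Fin n → (Co n LB LF → ℝ) → ℝ} {x : ℝ} {S : Finset (Fin n)} {BL : ℕ → Finset LB}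
  {FL FL' : Finset LF} {N N' : ℕ}

/-- the energy of a bounded function is at most the square of the bound -/
lemma en_le {κ : Type} [Fintype κ] [DecidableEq κ] {F A : (κ → ℝ) → ℝ} (hF : Lip F) (x : ℝ)
    (hA : BM A) {C : ℝ} (hC : ∀ z, A z ^ 2 ≤ C) (K : Finset κ) : en x F A K ≤ C := by
  have hw := wt_exp hF x
  have h1 : en x F A K ≤ en x F A Finset.univ := en_mono hF x hA (Finset.subset_univ K)
  refine h1.trans ?_
  unfold en ex
  rw [div_le_iff₀ hw.tot_pos, ← integral_const_mul]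
  have e1 : ∀ z, cx (gm κ) Finset.univ (fun z => Real.exp (x * F z)) A z = A z := fun z =>
    cx_dep hw (fun z z' => by rw [glue_univ]) z
  simp only [e1]
  have hA2 : BM fun z => A z ^ 2 := by simpa only [sq] using hA.mul hA
  refine integral_mono (hw.int_mul hA2) (hw.int.const_mul C) fun z => ?_
  simp only
  rw [mul_comm C]
  exact mul_le_mul_of_nonneg_left (hC z) (hw.pos z).le

/-- **The entropy path, from below.** -/
theorem Lev.lower (h : Lev F D B L cb cf A2 A1) (hx : 0 < x) (hm : Monotone BL) :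
    ∑ l ∈ Finset.range N, x ^ 2 / 2 * ((sh cb (BL (l + 1)) - sh cb (BL l)) *
      q2 x F A2 S (Kset S (BL l) FL)) ≤ KL F x := by
  have h1 : ∑ l ∈ Finset.range N, x ^ 2 / 2 * ((sh cb (BL (l + 1)) - sh cb (BL l)) *
      q2 x F A2 S (Kset S (BL l) FL)) ≤ ∑ l ∈ Finset.range N,
      (ent x F (Kset S (BL (l + 1)) FL) - ent x F (Kset S (BL l) FL)) := by
    refine Finset.sum_le_sum fun l _ => ?_
    have := h.le_stage (S := S) hx (hm (Nat.le_succ l)) (Finset.Subset.refl FL)
    simpa using this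
  refine h1.trans ?_
  rw [Finset.sum_range_sub (fun l => ent x F (Kset S (BL l) FL)), KL_eq_ent h.lip]
  have h2 := ent_mono h.lip x (Finset.subset_univ (Kset S (BL N) FL))
  have h3 := ent_mono h.lip x (Finset.empty_subset (Kset S (BL 0) FL))
  linarith

/-- **The entropy path, from above.** -/
theorem Lev.upper (h : Lev F D B L cb cf A2 A1) (hx : 0 < x) (hm : Monotone BL)
    (h0 : BL 0 = ∅) (hN : N ≤ N') (hN' : BL N' = Finset.univ) (hF : FL ⊆ FL')
    (h1 : ∀ i z, A1 i z ^ 2 ≤ 1) {g2 : ℝ} (hg : ∀ i z, D (gd LB LF i) z ^ 2 ≤ g2) :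
    KL F x ≤ x ^ 2 / 2 * (sh cf FL * q1 x F A1 S (Kset S ∅ FL)) +
      ∑ l ∈ Finset.range N, x ^ 2 / 2 * ((sh cb (BL (l + 1)) - sh cb (BL l)) *
        q2 x F A2 S (Kset S (BL (l + 1)) FL)) +
      x ^ 2 / 2 * (sh cb (BL N) * (q2 x F A2 Finset.univ (Kset Finset.univ (BL N) FL') -
          q2 x F A2 S (Kset Finset.univ (BL N) FL')) +
        sh cf FL' * (q1 x F A1 Finset.univ (Kset Finset.univ (BL N) FL') -
          q1 x F A1 S (Kset Finset.univ (BL N) FL')) +
        (sh cf FL' - sh cf FL) * q1 x F A1 S (Kset Finset.univ (BL N) FL')) +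
      ∑ l ∈ Finset.Ico N N', x ^ 2 / 2 * ((sh cb (BL (l + 1)) - sh cb (BL l)) *
        q2 x F A2 Finset.univ (Kset Finset.univ (BL (l + 1)) FL')) +
      x ^ 2 / 2 * (n * (sh cf Finset.univ - sh cf FL' + g2)) := by
  have hL := h.lip
  -- the field stage
  have s1 : ent x F (Kset S (∅ : Finset LB) FL) - ent x F ∅ ≤
      x ^ 2 / 2 * (sh cf FL * q1 x F A1 S (Kset S ∅ FL)) := by
    have e1 := ent_up h.c11 hx (Finset.empty_subset (Kset S (∅ : Finset LB) FL))
    rw [h.sum_en, Finset.sum_empty] at e1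
    have e2 : sh cb ∅ = 0 := by unfold sh; simp
    rw [e2] at e1
    simpa using e1
  -- the bonds inside `S`
  have s2 : ent x F (Kset S (BL N) FL) - ent x F (Kset S (∅ : Finset LB) FL) ≤
      ∑ l ∈ Finset.range N, x ^ 2 / 2 * ((sh cb (BL (l + 1)) - sh cb (BL l)) *
        q2 x F A2 S (Kset S (BL (l + 1)) FL)) := by
    have e1 : ∑ l ∈ Finset.range N,
        (ent x F (Kset S (BL (l + 1)) FL) - ent x F (Kset S (BL l) FL)) ≤
        ∑ l ∈ Finset.range N, x ^ 2 / 2 * ((sh cb (BL (l + 1)) - sh cb (BL l)) *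
          q2 x F A2 S (Kset S (BL (l + 1)) FL)) := by
      refine Finset.sum_le_sum fun l _ => ?_
      have := h.stage_le (S := S) hx (hm (Nat.le_succ l)) (Finset.Subset.refl FL)
      simpa using this
    rw [Finset.sum_range_sub (fun l => ent x F (Kset S (BL l) FL)), h0] at e1
    exact e1
  -- the hidden rows and the fields
  have s3 : ent x F (Kset Finset.univ (BL N) FL') - ent x F (Kset S (BL N) FL) ≤
      x ^ 2 / 2 * (sh cb (BL N) * (q2 x F A2 Finset.univ (Kset Finset.univ (BL N) FL') -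
          q2 x F A2 S (Kset Finset.univ (BL N) FL')) +
        sh cf FL' * (q1 x F A1 Finset.univ (Kset Finset.univ (BL N) FL') -
          q1 x F A1 S (Kset Finset.univ (BL N) FL')) +
        (sh cf FL' - sh cf FL) * q1 x F A1 S (Kset Finset.univ (BL N) FL')) := by
    refine (ent_up h.c11 hx (Kset_mono (Finset.subset_univ S) (Finset.Subset.refl (BL N))
      hF)).trans (le_of_eq ?_)
    rw [h.sum_en, h.sum_en]
    ring
  -- the near end
  have s4 : ent x F (Kset Finset.univ (Finset.univ : Finset LB) FL') -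
      ent x F (Kset Finset.univ (BL N) FL') ≤
      ∑ l ∈ Finset.Ico N N', x ^ 2 / 2 * ((sh cb (BL (l + 1)) - sh cb (BL l)) *
        q2 x F A2 Finset.univ (Kset Finset.univ (BL (l + 1)) FL')) := by
    have e1 : ∑ l ∈ Finset.Ico N N', (ent x F (Kset Finset.univ (BL (l + 1)) FL') -
        ent x F (Kset Finset.univ (BL l) FL')) ≤
        ∑ l ∈ Finset.Ico N N', x ^ 2 / 2 * ((sh cb (BL (l + 1)) - sh cb (BL l)) *
          q2 x F A2 Finset.univ (Kset Finset.univ (BL (l + 1)) FL')) := by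
      refine Finset.sum_le_sum fun l _ => ?_
      have := h.stage_le (S := Finset.univ) hx (hm (Nat.le_succ l)) (Finset.Subset.refl FL')
      simpa using this
    rw [Finset.sum_Ico_sub (fun l => ent x F (Kset Finset.univ (BL l) FL')) hN, hN'] at e1
    exact e1
  -- what is left
  have s5 : ent x F Finset.univ - ent x F (Kset Finset.univ (Finset.univ : Finset LB) FL') ≤
      x ^ 2 / 2 * (n * (sh cf Finset.univ - sh cf FL' + g2)) := by
    refine (ent_up h.c11 hx (Finset.subset_univ _)).trans ?_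
    refine mul_le_mul_of_nonneg_left ?_ (by positivity)
    rw [h.sum_en]
    have e1 : ∑ e, en x F (D e) Finset.univ =
        sh cb Finset.univ * q2 x F A2 Finset.univ Finset.univ +
          sh cf Finset.univ * q1 x F A1 Finset.univ Finset.univ +
          ∑ i, en x F (D (gd LB LF i)) Finset.univ := by
      have e2 := h.sum_en x Finset.univ Finset.univ Finset.univ Finset.univ
      rw [sum_Kset, ps_univ] at e2
      rw [← e2, Fintype.sum_sum_type, Fintype.sum_sum_type, Fintype.sum_prod_type,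
        Fintype.sum_prod_type]
    rw [e1]
    have e3 : ∑ i, en x F (D (gd LB LF i)) Finset.univ ≤ n * g2 := by
      have : ∀ i ∈ (Finset.univ : Finset (Fin n)), en x F (D (gd LB LF i)) Finset.univ ≤ g2 :=
        fun i _ => en_le hL x ⟨h.c11.meas _, B, h.c11.bd _⟩ (hg i) _
      refine (Finset.sum_le_card_nsmul _ _ _ this).trans (le_of_eq ?_)
      rw [nsmul_eq_mul, Finset.card_univ, Fintype.card_fin]
    have e4 : q1 x F A1 Finset.univ Finset.univ ≤ n := by
      have : ∀ i ∈ (Finset.univ : Finset (Fin n)), en x F (A1 i) Finset.univ ≤ 1 :=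
        fun i _ => en_le hL x (h.b1 i) (h1 i) _
      refine (Finset.sum_le_card_nsmul _ _ _ this).trans (le_of_eq ?_)
      rw [nsmul_eq_mul, Finset.card_univ, Fintype.card_fin, mul_one]
    have e5 : 0 ≤ sh cf Finset.univ - sh cf FL' := by
      unfold sh
      rw [sub_nonneg]
      exact Finset.sum_le_sum_of_subset_of_nonneg (Finset.subset_univ _)
        fun _ _ _ => sq_nonneg _
    have e6 := mul_le_mul_of_nonneg_left e4 e5
    nlinarith [e3, e6]
  rw [KL_eq_ent hL]
  linarith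

end gen

/-! ### the modulated SK system -/

section sk

open Vale.Agent.P146.H196 Vale.Agent.P146.H475

variable (b : ℝ) (cB : LB → ℝ) (cF : LF → ℝ) (s : ℝ) {lam η : ℝ} (c : ℝ) {x : ℝ}

/-- the functional of the modulated SK system -/
noncomputable abbrev Fm (n : ℕ) (b : ℝ) (cB : LB → ℝ) (cF : LF → ℝ) (s lam η c : ℝ) :
    (Co n LB LF → ℝ) → ℝ := lzm (muA (Xs n) lam η c) 1 (Sm b cB cF s η)

/-- the modulated SK system is a levelled functional -/
theorem lev_sk (hl : 0 < lam) (hη : 0 ≤ η) :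
    Lev (Fm n b cB cF s lam η c) (Dm (muA (Xs n) lam η c) 1 (Sm b cB cF s η))
      (Km (Co n LB LF) 1 (M0c b cB cF s η)) (3 * Km (Co n LB LF) 1 (M0c b cB cF s η) ^ 2)
      (fun l => b / √n * cB l) cF
      (fun p => avm (muA (Xs n) lam η c) 1 (Sm b cB cF s η) fun w => SkS p w.2)
      (fun i => avm (muA (Xs n) lam η c) 1 (Sm b cB cF s η) fun w => sp w.2 i) := by
  have hG := gmA (n := n) b cB cF s hl hη c
  have := msx n
  have hS : ∀ p : Pair n, Bm fun w : ℝ × Xs n => SkS p w.2 := fun p =>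
    (bm_sp p.1.1).mul (bm_sp p.1.2)
  refine ⟨hG.c11 1, fun p l z => ?_, fun i l z => ?_, fun π z => ?_, fun π p z => ?_,
    fun π i z => ?_, fun p => bm hG 1 (hS p), fun i => bm hG 1 (bm_sp i)⟩
  · unfold Dm
    rw [one_mul, ← H196.av_mul]
    rfl
  · unfold Dm
    rw [one_mul, ← H196.av_mul]
    rfl
  · exact (symP b cB cF s η hl c π).lz 1 z
  · show avm _ 1 _ _ (ac (cP LB LF π) (fun _ => 1) z) = _
    rw [(symP b cB cF s η hl c π).av 1]
    congr 1
    funext w
    exact (SkS_pf π p w.2).symm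
  · show avm _ 1 _ _ (ac (cP LB LF π) (fun _ => 1) z) = _
    rw [(symP b cB cF s η hl c π).av 1]
    rfl

/-- total share of a set of levels -/
noncomputable abbrev shr {LL : Type} (c : LL → ℝ) (T : Finset LL) : ℝ := ∑ l ∈ T, c l ^ 2

/-- `E_x ∑_(p inside S) (cx K <σσ>)^2` -/
noncomputable def Q2 (n : ℕ) (b : ℝ) (cB : LB → ℝ) (cF : LF → ℝ) (s lam η c x : ℝ)
    (S : Finset (Fin n)) (K : Finset (Co n LB LF)) : ℝ :=
  ex (g1 _) (Zxm (muA (Xs n) lam η c) 1 (Sm b cB cF s η) x) fun z => ∑ p ∈ ps S,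
    cx (g1 _) K (Zxm (muA (Xs n) lam η c) 1 (Sm b cB cF s η) x)
      (avm (muA (Xs n) lam η c) 1 (Sm b cB cF s η) fun w => SkS p w.2) z ^ 2

/-- `E_x ∑_(i in S) (cx K <σ>)^2` -/
noncomputable def Q1 (n : ℕ) (b : ℝ) (cB : LB → ℝ) (cF : LF → ℝ) (s lam η c x : ℝ)
    (S : Finset (Fin n)) (K : Finset (Co n LB LF)) : ℝ :=
  ex (g1 _) (Zxm (muA (Xs n) lam η c) 1 (Sm b cB cF s η) x) fun z => ∑ i ∈ S,
    cx (g1 _) K (Zxm (muA (Xs n) lam η c) 1 (Sm b cB cF s η) x)
      (avm (muA (Xs n) lam η c) 1 (Sm b cB cF s η) fun w => sp w.2 i) z ^ 2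

lemma q2_eq (hl : 0 < lam) (hη : 0 ≤ η) (S : Finset (Fin n)) (K : Finset (Co n LB LF)) :
    q2 x (Fm n b cB cF s lam η c)
      (fun p => avm (muA (Xs n) lam η c) 1 (Sm b cB cF s η) fun w => SkS p w.2) S K =
      Q2 n b cB cF s lam η c x S K := by
  have h := lev_sk (n := n) b cB cF s c hl hη
  unfold q2 Q2 en ex
  rw [← Finset.sum_div]
  congr 1
  have hw := wt_exp h.lip x
  rw [← integral_finsetSum _ fun p _ => hw.int_mul (by
    have h1 := hw.bm_cx K (h.b2 p)
    simpa only [sq] using h1.mul h1)]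
  refine integral_congr_ae (Filter.Eventually.of_forall fun z => ?_)
  simp only
  rw [← Finset.mul_sum]
  rfl

lemma q1_eq (hl : 0 < lam) (hη : 0 ≤ η) (S : Finset (Fin n)) (K : Finset (Co n LB LF)) :
    q1 x (Fm n b cB cF s lam η c)
      (fun i => avm (muA (Xs n) lam η c) 1 (Sm b cB cF s η) fun w => sp w.2 i) S K =
      Q1 n b cB cF s lam η c x S K := by
  have h := lev_sk (n := n) b cB cF s c hl hη
  unfold q1 Q1 en ex
  rw [← Finset.sum_div]
  congr 1
  have hw := wt_exp h.lip x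
  rw [← integral_finsetSum _ fun p _ => hw.int_mul (by
    have h1 := hw.bm_cx K (h.b1 p)
    simpa only [sq] using h1.mul h1)]
  refine integral_congr_ae (Filter.Eventually.of_forall fun z => ?_)
  simp only
  rw [← Finset.mul_sum]
  rfl

lemma sh_bond (T : Finset LB) : sh (fun l => b / √n * cB l) T = b ^ 2 / n * shr cB T := by
  unfold sh shr
  rw [Finset.mul_sum]
  refine Finset.sum_congr rfl fun l _ => ?_
  rw [mul_pow, div_pow, Real.sq_sqrt (Nat.cast_nonneg n)]

variable {S : Finset (Fin n)} {BL : ℕ → Finset LB} {FL FL' : Finset LF} {N N' : ℕ}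

/-- **K-path, from below.** -/
theorem kpath_lower (hl : 0 < lam) (hη : 0 ≤ η) (hx : 0 < x) (hm : Monotone BL) :
    ∑ l ∈ Finset.range N, x ^ 2 * b ^ 2 / (2 * n) * (shr cB (BL (l + 1)) - shr cB (BL l)) *
      Q2 n b cB cF s lam η c x S (Kset S (BL l) FL) ≤ KL (Fm n b cB cF s lam η c) x := by
  have h := (lev_sk (n := n) b cB cF s c hl hη).lower (S := S) (FL := FL) (N := N) hx hm
  simp only [sh_bond, q2_eq b cB cF s c hl hη] at h
  refine le_trans (le_of_eq ?_) h
  refine Finset.sum_congr rfl fun l _ => ?_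
  ring

/-- **K-path, from above.** -/
theorem kpath_upper (hl : 0 < lam) (hη : 0 ≤ η) (hx : 0 < x) (hm : Monotone BL)
    (h0 : BL 0 = ∅) (hN : N ≤ N') (hN' : BL N' = Finset.univ) (hF : FL ⊆ FL') :
    KL (Fm n b cB cF s lam η c) x ≤
      x ^ 2 / 2 * shr cF FL * Q1 n b cB cF s lam η c x S (Kset S ∅ FL) +
      ∑ l ∈ Finset.range N, x ^ 2 * b ^ 2 / (2 * n) * (shr cB (BL (l + 1)) - shr cB (BL l)) *
        Q2 n b cB cF s lam η c x S (Kset S (BL (l + 1)) FL) +
      x ^ 2 / 2 * (b ^ 2 / n * shr cB (BL N) *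
          (Q2 n b cB cF s lam η c x Finset.univ (Kset Finset.univ (BL N) FL') -
            Q2 n b cB cF s lam η c x S (Kset Finset.univ (BL N) FL')) +
        shr cF FL' * (Q1 n b cB cF s lam η c x Finset.univ (Kset Finset.univ (BL N) FL') -
            Q1 n b cB cF s lam η c x S (Kset Finset.univ (BL N) FL')) +
        (shr cF FL' - shr cF FL) *
          Q1 n b cB cF s lam η c x S (Kset Finset.univ (BL N) FL')) +
      ∑ l ∈ Finset.Ico N N', x ^ 2 * b ^ 2 / (2 * n) *
        (shr cB (BL (l + 1)) - shr cB (BL l)) *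
          Q2 n b cB cF s lam η c x Finset.univ (Kset Finset.univ (BL (l + 1)) FL') +
      x ^ 2 / 2 * (n * (shr cF Finset.univ - shr cF FL' + s ^ 2 * (1 + η) ^ 2)) := by
  have hG := gmA (n := n) b cB cF s hl hη c
  have hA1 : ∀ i z, avm (muA (Xs n) lam η c) 1 (Sm (n := n) b cB cF s η)
      (fun w => sp w.2 i) z ^ 2 ≤ 1 := by
    intro i z
    have h1 := hG.abs_av_le 1 (bm_sp (n := n) i).meas (C := 1) (fun w => (abs_sp w.2 i).le) z
    rw [← sq_abs]
    nlinarith [abs_nonneg (avm (muA (Xs n) lam η c) 1 (Sm b cB cF s η) (fun w => sp w.2 i) z)]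
  have hg : ∀ i z, Dm (muA (Xs n) lam η c) 1 (Sm (n := n) b cB cF s η) (gd LB LF i) z ^ 2 ≤
      s ^ 2 * (1 + η) ^ 2 := by
    intro i z
    have h1 : |avm (muA (Xs n) lam η c) 1 (Sm b cB cF s η)
        (Sm b cB cF s η (gd LB LF i)) z| ≤ |s| * (1 + η) := by
      refine hG.abs_av_le 1 (hG.meas _) (fun w => ?_) z
      rw [Sm_gd, abs_mul, abs_mul, abs_sp, mul_one, mul_comm]
      refine mul_le_mul_of_nonneg_left ?_ (abs_nonneg s)
      have := al_mem hη w.1
      rw [abs_le]
      constructor <;> linarith [this.1, this.2]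
    unfold Dm
    rw [one_mul, ← sq_abs, ← sq_abs s, ← mul_pow]
    exact pow_le_pow_left₀ (abs_nonneg _) h1 2
  have h := (lev_sk (n := n) b cB cF s c hl hη).upper (S := S) hx hm h0 hN hN' hF hA1 hg
  simp only [sh_bond, q2_eq b cB cF s c hl hη, q1_eq b cB cF s c hl hη] at h
  refine h.trans (le_of_eq ?_)
  have e1 : ∀ (f : ℕ → ℝ) (l : ℕ), x ^ 2 / 2 * ((b ^ 2 / n * shr cB (BL (l + 1)) -
      b ^ 2 / n * shr cB (BL l)) * f l) =
      x ^ 2 * b ^ 2 / (2 * n) * (shr cB (BL (l + 1)) - shr cB (BL l)) * f l := by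
    intro f l
    ring
  simp only [e1 fun l => Q2 n b cB cF s lam η c x S (Kset S (BL (l + 1)) FL),
    e1 fun l => Q2 n b cB cF s lam η c x Finset.univ (Kset Finset.univ (BL (l + 1)) FL')]
  unfold sh
  ring

end sk

end Vale.Agent.P146.H119
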