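import Vale.Agent.P146.H119.KPathSK
import Vale.Agent.P146.H281.U1

/-!
# P146: the entropy path for several field levels with different amplitudes (ensemble `U`)

`LevU`: a functional of bonds and fields with levels, symmetric under the permutations of the
sites, gradient `cb l * A2 p` on the bonds and `cf l * A1 l i` on the field level `l` (so that a
field level may carry its own thermal amplitude).

* `LevU.step_up`, `LevU.step_dn`: `ent` along any enlargement `(S, BL, FL) → (S', BL', FL')`;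
* `LevU.touch`, `LevU.rows1`: the sites of `S' \ S` by exchangeability;
* `LevU.upper`: the path; in its last part (all the sites revealed) bonds and field levels are
  revealed in any order; `LevU.lower`.
* `Q2U`, `Q1U`, `lev_U`, `kpathU_upper`, `kpathU_lower`: the ensemble `U`.
-/

open MeasureTheory ProbabilityTheory

namespace Vale.Agent.P146.H119

open Vale.Agent.P157.Lv hiding Dep
open Vale.Agent.P146.H425 Vale.Agent.P146.H646
open Vale.Agent.P146.H347 Vale.Agent.P146.H816 Vale.Agent.P146.H325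

set_option linter.unusedSectionVars false

variable {n : ℕ} {LB LF : Type} [Fintype LB] [DecidableEq LB] [Fintype LF] [DecidableEq LF]

/-! ### symmetric sums over a set of sites -/

section sums

variable {S S' : Finset (Fin n)}

lemma swap_pres {i j : Fin n} (hi : i ∈ S') (hj : j ∈ S') (a : Fin n) :
    Equiv.swap i j a ∈ S' ↔ a ∈ S' := swap_mem (iff_of_true hi hj) a

/-- a function of the sites of `S'` invariant under the permutations of `S'` is constant -/
lemma sum_const_on {f : Fin n → ℝ}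
    (hf : ∀ π : Equiv.Perm (Fin n), (∀ i, π i ∈ S' ↔ i ∈ S') → ∀ i, f (π i) = f i)
    (hS : S ⊆ S') : S'.card * ∑ i ∈ S, f i = S.card * ∑ i ∈ S', f i := by
  rcases S'.eq_empty_or_nonempty with h0 | ⟨i0, hi0⟩
  · subst h0
    have : S = ∅ := Finset.subset_empty.1 hS
    subst this
    simp
  · have h1 : ∀ i ∈ S', f i = f i0 := fun i hi => by
      have := hf (Equiv.swap i0 i) (swap_pres hi0 hi) i0
      rwa [Equiv.swap_apply_left] at this
    rw [Finset.sum_congr rfl h1, Finset.sum_congr rfl fun i hi => h1 i (hS hi)]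
    simp only [Finset.sum_const, nsmul_eq_mul]
    ring

/-- the bonds of `S'` which touch `S' \ S` -/
lemma sum_touch_on {f : Pair n → ℝ}
    (hf : ∀ π : Equiv.Perm (Fin n), (∀ i, π i ∈ S' ↔ i ∈ S') → ∀ p, f (pf π p) = f p)
    (h0 : ∀ p, 0 ≤ f p) (hS : S ⊆ S') :
    S'.card * (∑ p ∈ ps S', f p - ∑ p ∈ ps S, f p) ≤
      2 * (S'.card - S.card) * ∑ p ∈ ps S', f p := by
  set g : Pair n → ℝ := fun p => if p ∈ ps S' then f p else 0 with hg
  have g0 : ∀ p, 0 ≤ g p := fun p => by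
    rw [hg]
    dsimp only
    split_ifs
    · exact h0 p
    · exact le_rfl
  have gs : ∑ p, g p = ∑ p ∈ ps S', f p := by
    rw [hg]
    simp
  have ginv : ∀ π : Equiv.Perm (Fin n), (∀ i, π i ∈ S' ↔ i ∈ S') → ∀ p, g (pf π p) = g p := by
    intro π hπ p
    have h1 : pf π p ∈ ps S' ↔ p ∈ ps S' := by
      rw [mem_ps, mem_ps]
      exact pf_mem π hπ p
    rw [hg]
    dsimp only
    by_cases h2 : p ∈ ps S'
    · rw [if_pos h2, if_pos (h1.2 h2), hf π hπ]
    · rw [if_neg h2, if_neg fun h3 => h2 (h1.1 h3)]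
  -- the rows
  set r : Fin n → ℝ := fun i => ∑ p ∈ row i, g p with hr
  have rinv : ∀ π : Equiv.Perm (Fin n), (∀ i, π i ∈ S' ↔ i ∈ S') → ∀ i, r (π i) = r i := by
    intro π hπ i
    rw [hr]
    dsimp only
    refine (Finset.sum_equiv (pe π) (fun p => ?_) fun p _ => ?_).symm
    · rw [pe_apply, mem_row_pf]
    · rw [pe_apply, ginv π hπ]
  have rz : ∀ i ∉ S', r i = 0 := by
    intro i hi
    rw [hr]
    dsimp only
    refine Finset.sum_eq_zero fun p hp => ?_
    rw [mem_row] at hp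
    rw [hg]
    dsimp only
    rw [if_neg]
    rw [mem_ps]
    rintro ⟨h1, h2⟩
    rcases hp with h3 | h3
    · exact hi (h3 ▸ h1)
    · exact hi (h3 ▸ h2)
  have rsum : ∑ i ∈ S', r i = 2 * ∑ p ∈ ps S', f p := by
    rw [← gs, ← sum_rows g, ← Finset.sum_subset (Finset.subset_univ S') fun i _ hi => rz i hi]
  have h1 : ∑ p ∈ ps S', f p - ∑ p ∈ ps S, f p ≤ ∑ i ∈ S' \ S, r i := by
    have h2 : ∑ p ∈ ps S', f p - ∑ p ∈ ps S, f p = ∑ p ∈ ps S' \ ps S, g p := by
      rw [← Finset.sum_sdiff (ps_mono hS)]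
      rw [add_sub_cancel_right]
      refine Finset.sum_congr rfl fun p hp => ?_
      rw [hg]
      dsimp only
      rw [if_pos (Finset.mem_sdiff.1 hp).1]
    rw [h2]
    have h3 : ∀ p ∈ ps S' \ ps S, g p ≤ ∑ i ∈ S' \ S, if p ∈ row i then g p else 0 := by
      intro p hp
      have hnn : ∀ i ∈ S' \ S, 0 ≤ if p ∈ row i then g p else 0 := fun i _ => by
        split_ifs
        · exact g0 p
        · exact le_rfl
      rw [Finset.mem_sdiff, mem_ps, mem_ps, not_and_or] at hp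
      rcases hp.2 with h4 | h4
      · have h5 := Finset.single_le_sum hnn (Finset.mem_sdiff.2 ⟨hp.1.1, h4⟩)
        rwa [if_pos (mem_row.2 (Or.inl rfl))] at h5
      · have h5 := Finset.single_le_sum hnn (Finset.mem_sdiff.2 ⟨hp.1.2, h4⟩)
        rwa [if_pos (mem_row.2 (Or.inr rfl))] at h5
    refine (Finset.sum_le_sum h3).trans ?_
    have h6 : ∑ i ∈ S' \ S, r i = ∑ p, ∑ i ∈ S' \ S, if p ∈ row i then g p else 0 := by
      rw [Finset.sum_comm]
      refine Finset.sum_congr rfl fun i _ => ?_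
      have e7 : row i = Finset.univ.filter (fun p => p ∈ row i) := by
        ext p
        simp
      have e8 : r i = ∑ p ∈ Finset.univ.filter (fun p => p ∈ row i), g p := by
        rw [← e7]
      rw [e8, Finset.sum_filter]
    rw [h6]
    refine Finset.sum_le_sum_of_subset_of_nonneg (Finset.subset_univ _) fun p _ _ => ?_
    refine Finset.sum_nonneg fun i _ => ?_
    split_ifs
    · exact g0 p
    · exact le_rfl
  have h5 := sum_const_on rinv (Finset.sdiff_subset : S' \ S ⊆ S')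
  rw [rsum, Finset.card_sdiff_of_subset hS, Nat.cast_sub (Finset.card_le_card hS)] at h5
  have h6 := mul_le_mul_of_nonneg_left h1 (Nat.cast_nonneg (α := ℝ) S'.card)
  linarith

end sums

/-! ### revealed sets with the field `gd` on `G` -/

section kgs

/-- the bonds inside `S` with level in `BL`, the fields of the sites of `S` with level in `FL`, the
field `gd` on `G` -/
def Kgs (S : Finset (Fin n)) (BL : Finset LB) (FL : Finset LF) (G : Finset (Fin n)) :
    Finset (Co n LB LF) :=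
  Kg (fun l => if l ∈ BL then S else ∅) (fun l => if l ∈ FL then S else ∅) G

variable {S S' G G' : Finset (Fin n)} {BL BL' : Finset LB} {FL FL' : Finset LF}

lemma Kgs_empty (S : Finset (Fin n)) (BL : Finset LB) (FL : Finset LF) :
    Kgs S BL FL ∅ = Kset S BL FL := rfl

lemma bd_memG (p : Pair n) (l : LB) :
    bd LF p l ∈ Kgs S BL FL G ↔ (p.1.1 ∈ S ∧ p.1.2 ∈ S) ∧ l ∈ BL := by
  unfold Kgs
  rw [bd_mem]
  split_ifs with h <;> simp [h]

lemma fd_memG (i : Fin n) (l : LF) : fd LB i l ∈ Kgs S BL FL G ↔ i ∈ S ∧ l ∈ FL := by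
  unfold Kgs
  rw [fd_mem]
  split_ifs with h <;> simp [h]

lemma gd_memG (i : Fin n) : gd LB LF i ∈ Kgs S BL FL G ↔ i ∈ G := by
  unfold Kgs
  rw [gd_mem]

lemma Kgs_mono (hS : S ⊆ S') (hB : BL ⊆ BL') (hF : FL ⊆ FL') (hG : G ⊆ G') :
    Kgs S BL FL G ⊆ Kgs S' BL' FL' G' := by
  intro e he
  rcases e with (⟨p, l⟩ | ⟨i, l⟩) | j
  · rw [bd_memG] at he ⊢
    exact ⟨⟨hS he.1.1, hS he.1.2⟩, hB he.2⟩
  · rw [fd_memG] at he ⊢
    exact ⟨hS he.1, hF he.2⟩
  · rw [gd_memG] at he ⊢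
    exact hG he

theorem cP_memG (π : Equiv.Perm (Fin n)) (h : ∀ i, π i ∈ S ↔ i ∈ S)
    (hG : ∀ i, π i ∈ G ↔ i ∈ G) (e : Co n LB LF) :
    cP LB LF π e ∈ Kgs S BL FL G ↔ e ∈ Kgs S BL FL G := by
  refine cP_mem π (fun l i => ?_) (fun l i => ?_) hG e
  · split_ifs
    · exact h i
    · simp
  · split_ifs
    · exact h i
    · simp

lemma Kgs_eq (S : Finset (Fin n)) (BL : Finset LB) (FL : Finset LF) (G : Finset (Fin n)) :
    Kgs S BL FL G = ((ps S ×ˢ BL).disjSum (S ×ˢ FL)).disjSum G := by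
  ext e
  rcases e with (⟨p, l⟩ | ⟨i, l⟩) | j
  · rw [bd_memG]
    simp [mem_ps]
  · rw [fd_memG]
    simp
  · rw [gd_memG]
    simp

/-- sums over the revealed set -/
theorem sum_Kgs (S : Finset (Fin n)) (BL : Finset LB) (FL : Finset LF) (G : Finset (Fin n))
    (f : Co n LB LF → ℝ) : ∑ e ∈ Kgs S BL FL G, f e =
      ∑ p ∈ ps S, ∑ l ∈ BL, f (bd LF p l) + ∑ i ∈ S, ∑ l ∈ FL, f (fd LB i l) +
        ∑ i ∈ G, f (gd LB LF i) := by
  rw [Kgs_eq, Finset.sum_disjSum, Finset.sum_disjSum, Finset.sum_product, Finset.sum_product]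

end kgs

/-! ### general levelled functional -/

section levU

/-- A functional of bonds and fields with levels, symmetric under permutations of the sites; every
field level has its own observable. -/
structure LevU (F : (Co n LB LF → ℝ) → ℝ) (D : Co n LB LF → (Co n LB LF → ℝ) → ℝ) (B L : ℝ)
    (cb : LB → ℝ) (cf : LF → ℝ) (sg : ℝ) (A2 : Pair n → (Co n LB LF → ℝ) → ℝ)
    (A1 : LF → Fin n → (Co n LB LF → ℝ) → ℝ) (A0 : Fin n → (Co n LB LF → ℝ) → ℝ) : Prop where
  c11 : C11 F D B L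
  Db : ∀ p l z, D (bd LF p l) z = cb l * A2 p z
  Df : ∀ i l z, D (fd LB i l) z = cf l * A1 l i z
  Dg : ∀ i z, D (gd LB LF i) z = sg * A0 i z
  inv : InvP F
  e2 : ∀ π p z, A2 p (acP π z) = A2 (pf π p) z
  e1 : ∀ l π i z, A1 l i (acP π z) = A1 l (π i) z
  b2 : ∀ p, BM (A2 p)
  b1 : ∀ l i, BM (A1 l i)
  b0 : ∀ i, BM (A0 i)

variable {F : (Co n LB LF → ℝ) → ℝ} {D : Co n LB LF → (Co n LB LF → ℝ) → ℝ} {B L : ℝ}
  {cb : LB → ℝ} {cf : LF → ℝ} {sg : ℝ} {A2 : Pair n → (Co n LB LF → ℝ) → ℝ}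
  {A1 : LF → Fin n → (Co n LB LF → ℝ) → ℝ} {A0 : Fin n → (Co n LB LF → ℝ) → ℝ} {x : ℝ}
  {S S' G G' : Finset (Fin n)}
  {BL BL' : Finset LB} {FL FL' : Finset LF} {K K' : Finset (Co n LB LF)}

/-- the energy of the field levels of `FL` on the sites of `S` -/
noncomputable def q1s (x : ℝ) (F : (Co n LB LF → ℝ) → ℝ) (cf : LF → ℝ)
    (A1 : LF → Fin n → (Co n LB LF → ℝ) → ℝ) (FL : Finset LF) (S : Finset (Fin n))
    (K : Finset (Co n LB LF)) : ℝ := ∑ l ∈ FL, cf l ^ 2 * q1 x F (A1 l) S K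

lemma q1s_sdiff (x : ℝ) (F : (Co n LB LF → ℝ) → ℝ) (cf : LF → ℝ)
    (A1 : LF → Fin n → (Co n LB LF → ℝ) → ℝ) (h : FL ⊆ FL') (S : Finset (Fin n))
    (K : Finset (Co n LB LF)) :
    q1s x F cf A1 FL' S K - q1s x F cf A1 FL S K = q1s x F cf A1 (FL' \ FL) S K := by
  unfold q1s
  rw [← Finset.sum_sdiff h]
  ring

lemma sh_sdiff {LL : Type} [DecidableEq LL] (c : LL → ℝ) {T T' : Finset LL} (h : T ⊆ T') :
    sh c T' - sh c T = sh c (T' \ T) := by
  unfold sh
  rw [← Finset.sum_sdiff h]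
  ring

section

variable (h : LevU F D B L cb cf sg A2 A1 A0)
include h

lemma LevU.lip : Lip F := h.c11.lip.lip h.c11.B0

lemma LevU.q2_nonneg (x : ℝ) (S : Finset (Fin n)) (K : Finset (Co n LB LF)) :
    0 ≤ q2 x F A2 S K := Finset.sum_nonneg fun _ _ => en_nonneg h.lip x _ _

lemma LevU.q1_nonneg (x : ℝ) (l : LF) (S : Finset (Fin n)) (K : Finset (Co n LB LF)) :
    0 ≤ q1 x F (A1 l) S K := Finset.sum_nonneg fun _ _ => en_nonneg h.lip x _ _

lemma LevU.q1s_nonneg (x : ℝ) (FL : Finset LF) (S : Finset (Fin n))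
    (K : Finset (Co n LB LF)) : 0 ≤ q1s x F cf A1 FL S K :=
  Finset.sum_nonneg fun l _ => mul_nonneg (sq_nonneg _) (h.q1_nonneg x l S K)

/-- monotonicity in the set of sites and in the revealed set -/
lemma LevU.q2_mono (x : ℝ) (hS : S ⊆ S') (hK : K ⊆ K') : q2 x F A2 S K ≤ q2 x F A2 S' K' :=
  (Finset.sum_le_sum_of_subset_of_nonneg (ps_mono hS) fun _ _ _ => en_nonneg h.lip x _ _).trans
    (Finset.sum_le_sum fun p _ => en_mono h.lip x (h.b2 p) hK)

lemma LevU.q1_mono (x : ℝ) (l : LF) (hS : S ⊆ S') (hK : K ⊆ K') :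
    q1 x F (A1 l) S K ≤ q1 x F (A1 l) S' K' :=
  (Finset.sum_le_sum_of_subset_of_nonneg hS fun _ _ _ => en_nonneg h.lip x _ _).trans
    (Finset.sum_le_sum fun i _ => en_mono h.lip x (h.b1 l i) hK)

lemma LevU.q1s_mono (x : ℝ) (hF : FL ⊆ FL') (hS : S ⊆ S') (hK : K ⊆ K') :
    q1s x F cf A1 FL S K ≤ q1s x F cf A1 FL' S' K' :=
  (Finset.sum_le_sum_of_subset_of_nonneg hF fun l _ _ =>
    mul_nonneg (sq_nonneg _) (h.q1_nonneg x l S K)).trans
    (Finset.sum_le_sum fun l _ => mul_le_mul_of_nonneg_left (h.q1_mono x l hS hK) (sq_nonneg _))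

lemma LevU.sum_en (x : ℝ) (S : Finset (Fin n)) (BL : Finset LB) (FL : Finset LF)
    (G : Finset (Fin n)) (K : Finset (Co n LB LF)) : ∑ e ∈ Kgs S BL FL G, en x F (D e) K =
      sh cb BL * q2 x F A2 S K + q1s x F cf A1 FL S K + sg ^ 2 * q1 x F A0 G K := by
  rw [sum_Kgs]
  unfold sh q2 q1s q1
  congr 1
  · congr 1
    · rw [Finset.mul_sum]
      refine Finset.sum_congr rfl fun p _ => ?_
      rw [Finset.sum_mul]
      exact Finset.sum_congr rfl fun l _ => en_mul x (h.Db p l) K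
    · rw [Finset.sum_comm]
      refine Finset.sum_congr rfl fun l _ => ?_
      rw [Finset.mul_sum]
      exact Finset.sum_congr rfl fun i _ => en_mul x (h.Df i l) K
  · rw [Finset.mul_sum]
    exact Finset.sum_congr rfl fun i _ => en_mul x (h.Dg i) K

/-- **One step of the path, from above.** -/
theorem LevU.step_up (hx : 0 < x) (hS : S ⊆ S') (hB : BL ⊆ BL') (hF : FL ⊆ FL')
    (hG : G ⊆ G') :
    ent x F (Kgs S' BL' FL' G') - ent x F (Kgs S BL FL G) ≤ x ^ 2 / 2 *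
      ((sh cb BL' * q2 x F A2 S' (Kgs S' BL' FL' G') -
          sh cb BL * q2 x F A2 S (Kgs S' BL' FL' G')) +
        (q1s x F cf A1 FL' S' (Kgs S' BL' FL' G') - q1s x F cf A1 FL S (Kgs S' BL' FL' G')) +
        sg ^ 2 * (q1 x F A0 G' (Kgs S' BL' FL' G') - q1 x F A0 G (Kgs S' BL' FL' G'))) := by
  refine (ent_up h.c11 hx (Kgs_mono hS hB hF hG)).trans (le_of_eq ?_)
  rw [h.sum_en, h.sum_en]
  ring

/-- **One step of the path, from below.** -/
theorem LevU.step_dn (hx : 0 < x) (hS : S ⊆ S') (hB : BL ⊆ BL') (hF : FL ⊆ FL')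
    (hG : G ⊆ G') :
    x ^ 2 / 2 *
      ((sh cb BL' * q2 x F A2 S' (Kgs S BL FL G) - sh cb BL * q2 x F A2 S (Kgs S BL FL G)) +
        (q1s x F cf A1 FL' S' (Kgs S BL FL G) - q1s x F cf A1 FL S (Kgs S BL FL G)) +
        sg ^ 2 * (q1 x F A0 G' (Kgs S BL FL G) - q1 x F A0 G (Kgs S BL FL G))) ≤
    ent x F (Kgs S' BL' FL' G') - ent x F (Kgs S BL FL G) := by
  refine le_trans (le_of_eq ?_) (ent_dn h.c11 hx (Kgs_mono hS hB hF hG))
  rw [h.sum_en, h.sum_en]
  ring

/-- the step with the set of sites fixed, from above -/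
theorem LevU.lev_up (hx : 0 < x) (hB : BL ⊆ BL') (hF : FL ⊆ FL') :
    ent x F (Kgs S BL' FL' G) - ent x F (Kgs S BL FL G) ≤ x ^ 2 / 2 *
      (sh cb (BL' \ BL) * q2 x F A2 S (Kgs S BL' FL' G) +
        q1s x F cf A1 (FL' \ FL) S (Kgs S BL' FL' G)) := by
  have h1 := h.step_up (S := S) (G := G) hx (Finset.Subset.refl S) hB hF
    (Finset.Subset.refl G)
  rw [q1s_sdiff x F cf A1 hF, ← sub_mul, sh_sdiff cb hB, sub_self, mul_zero, add_zero] at h1
  exact h1

/-- the step with the set of sites fixed, from below -/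
theorem LevU.lev_dn (hx : 0 < x) (hB : BL ⊆ BL') (hF : FL ⊆ FL') : x ^ 2 / 2 *
      (sh cb (BL' \ BL) * q2 x F A2 S (Kgs S BL FL G) +
        q1s x F cf A1 (FL' \ FL) S (Kgs S BL FL G)) ≤
    ent x F (Kgs S BL' FL' G) - ent x F (Kgs S BL FL G) := by
  have h1 := h.step_dn (S := S) (G := G) hx (Finset.Subset.refl S) hB hF
    (Finset.Subset.refl G)
  rw [q1s_sdiff x F cf A1 hF, ← sub_mul, sh_sdiff cb hB, sub_self, mul_zero, add_zero] at h1
  exact h1

lemma LevU.en1 (x : ℝ) (l : LF) (π : Equiv.Perm (Fin n))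
    (hK : ∀ e, cP LB LF π e ∈ K ↔ e ∈ K) (i : Fin n) :
    en x F (A1 l (π i)) K = en x F (A1 l i) K := by
  have hw : InvP fun z => Real.exp (x * F z) := fun π z => by simp only [h.inv π z]
  have h1 := ex_P hw π (fun z => cx (gm _) K (fun z => Real.exp (x * F z)) (A1 l i) z ^ 2)
  unfold en
  rw [← h1]
  congr 1
  funext z
  have h2 := cx_P hw hK (A1 l i) z
  simp only [h.e1] at h2
  rw [h2]

lemma LevU.en2 (x : ℝ) (π : Equiv.Perm (Fin n)) (hK : ∀ e, cP LB LF π e ∈ K ↔ e ∈ K)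
    (p : Pair n) : en x F (A2 (pf π p)) K = en x F (A2 p) K := by
  have hw : InvP fun z => Real.exp (x * F z) := fun π z => by simp only [h.inv π z]
  have h1 := ex_P hw π (fun z => cx (gm _) K (fun z => Real.exp (x * F z)) (A2 p) z ^ 2)
  unfold en
  rw [← h1]
  congr 1
  funext z
  have h2 := cx_P hw hK (A2 p) z
  simp only [h.e2] at h2
  rw [h2]

/-- the bonds of the sites of `S' \ S` -/
theorem LevU.touch (x : ℝ) (hS : S ⊆ S') (BL : Finset LB) (FL : Finset LF)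
    (hG : ∀ π : Equiv.Perm (Fin n), (∀ i, π i ∈ S' ↔ i ∈ S') → ∀ i, π i ∈ G ↔ i ∈ G) :
    S'.card * (q2 x F A2 S' (Kgs S' BL FL G) - q2 x F A2 S (Kgs S' BL FL G)) ≤
      2 * (S'.card - S.card) * q2 x F A2 S' (Kgs S' BL FL G) :=
  sum_touch_on (f := fun p => en x F (A2 p) (Kgs S' BL FL G))
    (fun π hπ p => h.en2 x π (fun e => cP_memG π hπ (hG π hπ) e) p)
    (fun p => en_nonneg h.lip x (A2 p) _) hS

/-- the fields of the sites of `S' \ S` -/
theorem LevU.rows1 (x : ℝ) (l : LF) (hS : S ⊆ S') (BL : Finset LB) (FL : Finset LF)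
    (hG : ∀ π : Equiv.Perm (Fin n), (∀ i, π i ∈ S' ↔ i ∈ S') → ∀ i, π i ∈ G ↔ i ∈ G) :
    S'.card * (q1 x F (A1 l) S' (Kgs S' BL FL G) - q1 x F (A1 l) S (Kgs S' BL FL G)) =
      (S'.card - S.card) * q1 x F (A1 l) S' (Kgs S' BL FL G) := by
  have h1 := sum_const_on (f := fun i => en x F (A1 l i) (Kgs S' BL FL G))
    (fun π hπ i => h.en1 x l π (fun e => cP_memG π hπ (hG π hπ) e) i) hS
  unfold q1
  rw [mul_sub, h1]
  ring

theorem LevU.rows1s (x : ℝ) (M : Finset LF) (hS : S ⊆ S') (BL : Finset LB) (FL : Finset LF)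
    (hG : ∀ π : Equiv.Perm (Fin n), (∀ i, π i ∈ S' ↔ i ∈ S') → ∀ i, π i ∈ G ↔ i ∈ G) :
    S'.card * (q1s x F cf A1 M S' (Kgs S' BL FL G) - q1s x F cf A1 M S (Kgs S' BL FL G)) =
      (S'.card - S.card) * q1s x F cf A1 M S' (Kgs S' BL FL G) := by
  unfold q1s
  rw [← Finset.sum_sub_distrib, Finset.mul_sum, Finset.mul_sum]
  refine Finset.sum_congr rfl fun l _ => ?_
  have h1 := h.rows1 x l hS BL FL hG
  have e1 : S'.card * (cf l ^ 2 * q1 x F (A1 l) S' (Kgs S' BL FL G) -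
      cf l ^ 2 * q1 x F (A1 l) S (Kgs S' BL FL G)) =
      cf l ^ 2 * (S'.card * (q1 x F (A1 l) S' (Kgs S' BL FL G) -
        q1 x F (A1 l) S (Kgs S' BL FL G))) := by ring
  rw [e1, h1]
  ring

/-- **One step of the path with new sites, from above**: the new rows cost the fraction
`(|S'| - |S|)/|S'|` of the energies; `gd` is revealed on `G'`. -/
theorem LevU.step_rows (hx : 0 < x) (hc : 0 < S'.card) (hS : S ⊆ S') (hB : BL ⊆ BL')
    (hF : FL ⊆ FL')
    (hG : ∀ π : Equiv.Perm (Fin n), (∀ i, π i ∈ S' ↔ i ∈ S') → ∀ i, π i ∈ G' ↔ i ∈ G') :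
    ent x F (Kgs S' BL' FL' G') - ent x F (Kset S BL FL) ≤ x ^ 2 / 2 *
      ((sh cb (BL' \ BL) + sh cb BL * (2 * ((S'.card - S.card : ℝ) / S'.card))) *
          q2 x F A2 S' (Kgs S' BL' FL' G') +
        (q1s x F cf A1 (FL' \ FL) S' (Kgs S' BL' FL' G') +
          (S'.card - S.card : ℝ) / S'.card * q1s x F cf A1 FL S' (Kgs S' BL' FL' G')) +
        sg ^ 2 * q1 x F A0 G' (Kgs S' BL' FL' G')) := by
  have hc' : (0 : ℝ) < S'.card := Nat.cast_pos.2 hc
  refine (h.step_up (G := ∅) (G' := G') hx hS hB hF (Finset.empty_subset _)).trans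
    (mul_le_mul_of_nonneg_left ?_ (by positivity))
  have h1 := h.touch x hS BL' FL' hG
  have h2 := h.rows1s x FL hS BL' FL' hG
  have h0 : q1 x F A0 ∅ (Kgs S' BL' FL' G') = 0 := by unfold q1; simp
  rw [h0, sub_zero]
  set K1 := Kgs S' BL' FL' G' with hK1
  have h3 : q2 x F A2 S' K1 - q2 x F A2 S K1 ≤
      2 * ((S'.card - S.card : ℝ) / S'.card) * q2 x F A2 S' K1 := by
    have e1 : 2 * ((S'.card - S.card : ℝ) / S'.card) * q2 x F A2 S' K1 =
        (2 * (S'.card - S.card) * q2 x F A2 S' K1) / S'.card := by ring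
    rw [e1, le_div_iff₀ hc']
    linarith
  have h4 : q1s x F cf A1 FL S' K1 - q1s x F cf A1 FL S K1 =
      (S'.card - S.card : ℝ) / S'.card * q1s x F cf A1 FL S' K1 := by
    rw [div_mul_eq_mul_div, eq_div_iff hc'.ne']
    linarith
  have h5 := q1s_sdiff x F cf A1 hF S' K1
  have h6 := sh_sdiff cb hB
  have h7 := mul_le_mul_of_nonneg_left h3 (sh_nonneg cb BL)
  have e2 : sh cb BL' = sh cb (BL' \ BL) + sh cb BL := by linarith
  rw [e2]
  nlinarith [h4, h5, h7]

end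

/-! ### the path -/

variable {Bl : ℕ → Finset LB} {Fl : ℕ → Finset LF} {N N' : ℕ}

/-- **The entropy path, from above.** First the field levels `FL` on `S`, then the bonds of `S`
(`N` steps), then all the rows, the field levels of `Fl N` and `gd` on `G` (`G = ∅` or all the
sites), then bonds and field levels in any order (`Bl`, `Fl`), last everything with the trivial
bound. -/
theorem LevU.upper (h : LevU F D B L cb cf sg A2 A1 A0) (hx : 0 < x) (hn : 0 < n)
    (hm : Monotone Bl) (hmF : Monotone Fl) (h0 : Bl 0 = ∅) (hN : N ≤ N')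
    (hN' : Bl N' = Finset.univ) (hF : FL ⊆ Fl N) (hG : ∀ (π : Equiv.Perm (Fin n)) i, π i ∈ G ↔ i ∈ G)
    {a1 : LF → ℝ} (h1 : ∀ l i z, A1 l i z ^ 2 ≤ a1 l) {a0 : ℝ} (ha0 : ∀ i z, A0 i z ^ 2 ≤ a0) :
    KL F x ≤ x ^ 2 / 2 * q1s x F cf A1 FL S (Kset S ∅ FL) +
      ∑ l ∈ Finset.range N, x ^ 2 / 2 * (sh cb (Bl (l + 1) \ Bl l) *
        q2 x F A2 S (Kset S (Bl (l + 1)) FL)) +
      x ^ 2 / 2 * (sh cb (Bl N) * (2 * ((n - S.card : ℝ) / n)) *
          q2 x F A2 Finset.univ (Kgs Finset.univ (Bl N) (Fl N) G) +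
        (q1s x F cf A1 (Fl N \ FL) Finset.univ (Kgs Finset.univ (Bl N) (Fl N) G) +
          (n - S.card : ℝ) / n *
            q1s x F cf A1 FL Finset.univ (Kgs Finset.univ (Bl N) (Fl N) G)) +
        sg ^ 2 * q1 x F A0 G (Kgs Finset.univ (Bl N) (Fl N) G)) +
      ∑ l ∈ Finset.Ico N N', x ^ 2 / 2 * (sh cb (Bl (l + 1) \ Bl l) *
          q2 x F A2 Finset.univ (Kgs Finset.univ (Bl (l + 1)) (Fl (l + 1)) G) +
        q1s x F cf A1 (Fl (l + 1) \ Fl l) Finset.univ
          (Kgs Finset.univ (Bl (l + 1)) (Fl (l + 1)) G)) +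
      x ^ 2 / 2 * (n * ∑ l ∈ (Fl N')ᶜ, cf l ^ 2 * a1 l + (n - G.card) * (sg ^ 2 * a0)) := by
  have hL := h.lip
  -- the field stage
  have s1 : ent x F (Kset S (∅ : Finset LB) FL) - ent x F ∅ ≤
      x ^ 2 / 2 * q1s x F cf A1 FL S (Kset S ∅ FL) := by
    have e1 := ent_up h.c11 hx (Finset.empty_subset (Kset S (∅ : Finset LB) FL))
    rw [← Kgs_empty, h.sum_en, Finset.sum_empty] at e1
    have e2 : sh cb ∅ = 0 := by unfold sh; simp
    have e3 : q1 x F A0 ∅ (Kgs S (∅ : Finset LB) FL ∅) = 0 := by unfold q1; simp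
    rw [e2, e3] at e1
    simpa [Kgs_empty] using e1
  -- the bonds inside `S`
  have s2 : ent x F (Kset S (Bl N) FL) - ent x F (Kset S (∅ : Finset LB) FL) ≤
      ∑ l ∈ Finset.range N, x ^ 2 / 2 * (sh cb (Bl (l + 1) \ Bl l) *
        q2 x F A2 S (Kset S (Bl (l + 1)) FL)) := by
    have e1 : ∑ l ∈ Finset.range N,
        (ent x F (Kset S (Bl (l + 1)) FL) - ent x F (Kset S (Bl l) FL)) ≤
        ∑ l ∈ Finset.range N, x ^ 2 / 2 * (sh cb (Bl (l + 1) \ Bl l) *
          q2 x F A2 S (Kset S (Bl (l + 1)) FL)) := by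
      refine Finset.sum_le_sum fun l _ => ?_
      have := h.lev_up (S := S) (G := ∅) hx (hm (Nat.le_succ l)) (Finset.Subset.refl FL)
      have e2 : q1s x F cf A1 (∅ : Finset LF) S (Kgs S (Bl (l + 1)) FL ∅) = 0 := by
        unfold q1s; simp
      rw [Finset.sdiff_self, e2, add_zero] at this
      exact this
    rw [Finset.sum_range_sub (fun l => ent x F (Kset S (Bl l) FL)), h0] at e1
    exact e1
  -- the rows
  have s3 : ent x F (Kgs Finset.univ (Bl N) (Fl N) G) - ent x F (Kset S (Bl N) FL) ≤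
      x ^ 2 / 2 * (sh cb (Bl N) * (2 * ((n - S.card : ℝ) / n)) *
          q2 x F A2 Finset.univ (Kgs Finset.univ (Bl N) (Fl N) G) +
        (q1s x F cf A1 (Fl N \ FL) Finset.univ (Kgs Finset.univ (Bl N) (Fl N) G) +
          (n - S.card : ℝ) / n *
            q1s x F cf A1 FL Finset.univ (Kgs Finset.univ (Bl N) (Fl N) G)) +
        sg ^ 2 * q1 x F A0 G (Kgs Finset.univ (Bl N) (Fl N) G)) := by
    have e1 := h.step_rows (S := S) (S' := Finset.univ) (G' := G) hx
      (by rw [Finset.card_univ, Fintype.card_fin]; exact hn) (Finset.subset_univ S)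
      (Finset.Subset.refl (Bl N)) hF (fun π _ => hG π)
    have e2 : sh cb (∅ : Finset LB) = 0 := by unfold sh; simp
    rw [Finset.sdiff_self, e2, zero_add, Finset.card_univ, Fintype.card_fin] at e1
    exact e1
  -- the near end
  have s4 : ent x F (Kgs Finset.univ (Finset.univ : Finset LB) (Fl N') G) -
      ent x F (Kgs Finset.univ (Bl N) (Fl N) G) ≤
      ∑ l ∈ Finset.Ico N N', x ^ 2 / 2 * (sh cb (Bl (l + 1) \ Bl l) *
          q2 x F A2 Finset.univ (Kgs Finset.univ (Bl (l + 1)) (Fl (l + 1)) G) +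
        q1s x F cf A1 (Fl (l + 1) \ Fl l) Finset.univ
          (Kgs Finset.univ (Bl (l + 1)) (Fl (l + 1)) G)) := by
    have e1 : ∑ l ∈ Finset.Ico N N', (ent x F (Kgs Finset.univ (Bl (l + 1)) (Fl (l + 1)) G) -
        ent x F (Kgs Finset.univ (Bl l) (Fl l) G)) ≤
        ∑ l ∈ Finset.Ico N N', x ^ 2 / 2 * (sh cb (Bl (l + 1) \ Bl l) *
          q2 x F A2 Finset.univ (Kgs Finset.univ (Bl (l + 1)) (Fl (l + 1)) G) +
        q1s x F cf A1 (Fl (l + 1) \ Fl l) Finset.univ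
          (Kgs Finset.univ (Bl (l + 1)) (Fl (l + 1)) G)) :=
      Finset.sum_le_sum fun l _ =>
        h.lev_up (S := Finset.univ) (G := G) hx (hm (Nat.le_succ l)) (hmF (Nat.le_succ l))
    rw [Finset.sum_Ico_sub (fun l => ent x F (Kgs Finset.univ (Bl l) (Fl l) G)) hN, hN'] at e1
    exact e1
  -- what is left
  have s5 : ent x F Finset.univ -
      ent x F (Kgs Finset.univ (Finset.univ : Finset LB) (Fl N') G) ≤
      x ^ 2 / 2 * (n * ∑ l ∈ (Fl N')ᶜ, cf l ^ 2 * a1 l + (n - G.card) * (sg ^ 2 * a0)) := by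
    refine (ent_up h.c11 hx (Finset.subset_univ _)).trans ?_
    refine mul_le_mul_of_nonneg_left ?_ (by positivity)
    rw [h.sum_en]
    have e0 : (Finset.univ : Finset (Co n LB LF)) =
        Kgs Finset.univ Finset.univ Finset.univ Finset.univ := by
      ext e
      rcases e with (⟨p, l⟩ | ⟨i, l⟩) | j
      · rw [bd_memG]; simp
      · rw [fd_memG]; simp
      · rw [gd_memG]; simp
    have e1 : ∑ e, en x F (D e) Finset.univ =
        sh cb Finset.univ * q2 x F A2 Finset.univ Finset.univ +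
          q1s x F cf A1 Finset.univ Finset.univ Finset.univ +
          sg ^ 2 * q1 x F A0 Finset.univ Finset.univ := by
      have e2 := h.sum_en x Finset.univ Finset.univ Finset.univ Finset.univ Finset.univ
      rw [← e0] at e2
      exact e2
    rw [e1]
    have e3 : q1 x F A0 Finset.univ Finset.univ - q1 x F A0 G Finset.univ ≤
        (n - G.card) * a0 := by
      have e4 : q1 x F A0 Finset.univ Finset.univ - q1 x F A0 G Finset.univ =
          ∑ i ∈ Gᶜ, en x F (A0 i) Finset.univ := by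
        unfold q1
        rw [← Finset.sum_add_sum_compl G]
        ring
      rw [e4]
      have : ∀ i ∈ Gᶜ, en x F (A0 i) Finset.univ ≤ a0 :=
        fun i _ => en_le hL x (h.b0 i) (ha0 i) _
      refine (Finset.sum_le_card_nsmul _ _ _ this).trans (le_of_eq ?_)
      rw [nsmul_eq_mul, Finset.card_compl, Fintype.card_fin,
        Nat.cast_sub (by simpa using Finset.card_le_univ G)]
    have e4 : ∀ l, q1 x F (A1 l) Finset.univ Finset.univ ≤ n * a1 l := by
      intro l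
      have : ∀ i ∈ (Finset.univ : Finset (Fin n)), en x F (A1 l i) Finset.univ ≤ a1 l :=
        fun i _ => en_le hL x (h.b1 l i) (h1 l i) _
      refine (Finset.sum_le_card_nsmul _ _ _ this).trans (le_of_eq ?_)
      rw [nsmul_eq_mul, Finset.card_univ, Fintype.card_fin]
    have e5 := q1s_sdiff x F cf A1 (Finset.subset_univ (Fl N')) Finset.univ Finset.univ
    have e6 : q1s x F cf A1 (Finset.univ \ Fl N') Finset.univ Finset.univ ≤
        n * ∑ l ∈ (Fl N')ᶜ, cf l ^ 2 * a1 l := by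
      unfold q1s
      rw [Finset.mul_sum, Finset.compl_eq_univ_sdiff]
      refine Finset.sum_le_sum fun l _ => ?_
      have := mul_le_mul_of_nonneg_left (e4 l) (sq_nonneg (cf l))
      linarith
    have e7 := mul_le_mul_of_nonneg_left e3 (sq_nonneg sg)
    linarith
  rw [KL_eq_ent hL]
  linarith

/-- **The entropy path, from below.** -/
theorem LevU.lower (h : LevU F D B L cb cf sg A2 A1 A0) (hx : 0 < x) (hm : Monotone Bl) :
    ∑ l ∈ Finset.range N, x ^ 2 / 2 * (sh cb (Bl (l + 1) \ Bl l) *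
      q2 x F A2 S (Kset S (Bl l) FL)) ≤ KL F x := by
  have h1 : ∑ l ∈ Finset.range N, x ^ 2 / 2 * (sh cb (Bl (l + 1) \ Bl l) *
      q2 x F A2 S (Kset S (Bl l) FL)) ≤ ∑ l ∈ Finset.range N,
      (ent x F (Kset S (Bl (l + 1)) FL) - ent x F (Kset S (Bl l) FL)) := by
    refine Finset.sum_le_sum fun l _ => ?_
    have := h.lev_dn (S := S) (G := ∅) hx (hm (Nat.le_succ l)) (Finset.Subset.refl FL)
    have e2 : q1s x F cf A1 (∅ : Finset LF) S (Kgs S (Bl l) FL ∅) = 0 := by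
      unfold q1s; simp
    rw [Finset.sdiff_self, e2, add_zero] at this
    exact this
  refine h1.trans ?_
  rw [Finset.sum_range_sub (fun l => ent x F (Kset S (Bl l) FL)), KL_eq_ent h.lip]
  have h2 := ent_mono h.lip x (Finset.subset_univ (Kset S (Bl N) FL))
  have h3 := ent_mono h.lip x (Finset.empty_subset (Kset S (Bl 0) FL))
  linarith

end levU

/-! ### the ensembles -/

section ens

open Vale.Agent.P146.H196 Vale.Agent.P146.H475 Vale.Agent.P146.H281.U

lemma sum_en_ex {κ α : Type} [Fintype κ] [DecidableEq κ] {F : (κ → ℝ) → ℝ} (hF : Lip F)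
    (x : ℝ) {A : α → (κ → ℝ) → ℝ} (hA : ∀ e, BM (A e)) (t : Finset α) (K : Finset κ) :
    ∑ e ∈ t, en x F (A e) K = ex (gm κ) (fun z => Real.exp (x * F z)) fun z => ∑ e ∈ t,
      cx (gm κ) K (fun z => Real.exp (x * F z)) (A e) z ^ 2 := by
  have hw := wt_exp hF x
  unfold en ex
  rw [← Finset.sum_div]
  congr 1
  rw [← integral_finsetSum _ fun p _ => hw.int_mul (by
    have h1 := hw.bm_cx K (hA p)
    simpa only [sq] using h1.mul h1)]
  refine integral_congr_ae (Filter.Eventually.of_forall fun z => ?_)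
  simp only
  rw [← Finset.mul_sum]

lemma bm_fsp {Th : Type} [MeasurableSpace Th] {f : Th → ℝ} (hf : Measurable f) {C : ℝ}
    (hC : ∀ θ, |f θ| ≤ C) (i : Fin n) : Bm fun w : Th × Xs n => f w.1 * sp w.2 i := by
  have := dmx n
  refine Bm.of ((hf.comp measurable_fst).mul
    ((Measurable.of_discrete (f := fun σ : Xs n => sp σ i)).comp measurable_snd)) (C := C)
    fun w => ?_
  rw [abs_mul]
  have h1 := H281.U.abs_sp w.2 i
  have h2 := hC w.1
  have h3 := abs_nonneg (f w.1)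
  nlinarith [abs_nonneg (sp w.2 i)]

lemma bm_SkSU {Th : Type} [MeasurableSpace Th] (p : Pair n) :
    Bm fun w : Th × Xs n => SkS p w.2 := by
  have := dmx n
  exact Bm.of ((Measurable.of_discrete (f := fun σ : Xs n => SkS p σ)).comp measurable_snd)
    (C := 1) fun w => H281.U.abs_SkS p w.2

variable (b : ℝ) (cB : LB → ℝ) (cF : LF → ℝ)

/-! ### the single amplitude with the modulated field revealed on the way -/

section single

variable (s : ℝ) {lam η : ℝ} (c : ℝ) {x : ℝ}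

/-- `E_x ∑_(i in S) (cx K <al σ_i>)^2` -/
noncomputable def QG (n : ℕ) (b : ℝ) (cB : LB → ℝ) (cF : LF → ℝ) (s lam η c x : ℝ)
    (S : Finset (Fin n)) (K : Finset (Co n LB LF)) : ℝ :=
  ex (g1 _) (Zxm (muA (Xs n) lam η c) 1 (Sm b cB cF s η) x) fun z => ∑ i ∈ S,
    cx (g1 _) K (Zxm (muA (Xs n) lam η c) 1 (Sm b cB cF s η) x)
      (avm (muA (Xs n) lam η c) 1 (Sm b cB cF s η) fun w => al η w.1 * sp w.2 i) z ^ 2

lemma abs_al_le' (hη : 0 ≤ η) (t : ℝ) : |al η t| ≤ 1 + η := by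
  have := al_mem hη t
  rw [abs_le]
  constructor <;> linarith [this.1, this.2]

/-- the modulated SK system, the modulated field included -/
theorem lev_single (hl : 0 < lam) (hη : 0 ≤ η) :
    LevU (Fm n b cB cF s lam η c) (Dm (muA (Xs n) lam η c) 1 (Sm b cB cF s η))
      (Km (Co n LB LF) 1 (M0c b cB cF s η)) (3 * Km (Co n LB LF) 1 (M0c b cB cF s η) ^ 2)
      (fun l => b / √n * cB l) cF s
      (fun p => avm (muA (Xs n) lam η c) 1 (Sm b cB cF s η) fun w => SkS p w.2)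
      (fun _ i => avm (muA (Xs n) lam η c) 1 (Sm b cB cF s η) fun w => sp w.2 i)
      (fun i => avm (muA (Xs n) lam η c) 1 (Sm b cB cF s η) fun w => al η w.1 * sp w.2 i) := by
  have h := lev_sk (n := n) b cB cF s c hl hη
  have hG := gmA (n := n) b cB cF s hl hη c
  refine ⟨h.c11, h.Db, h.Df, fun i z => ?_, h.inv, h.e2, fun _ => h.e1, h.b2, fun _ => h.b1,
    fun i => bm hG 1 (bm_fsp (measurable_al η) (abs_al_le' hη) i)⟩
  unfold Dm
  rw [one_mul, ← H196.av_mul]
  congr 1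
  funext w
  rw [Sm_gd]
  ring

lemma qG_eq (hl : 0 < lam) (hη : 0 ≤ η) (S : Finset (Fin n)) (K : Finset (Co n LB LF)) :
    q1 x (Fm n b cB cF s lam η c)
      (fun i => avm (muA (Xs n) lam η c) 1 (Sm b cB cF s η) fun w => al η w.1 * sp w.2 i) S K =
      QG n b cB cF s lam η c x S K :=
  sum_en_ex (lev_single b cB cF s c hl hη).lip x (lev_single b cB cF s c hl hη).b0 S K

variable {S : Finset (Fin n)} {BL : ℕ → Finset LB} {FL FL' : Finset LF} {N N' : ℕ}

/-- **K-path from above, single amplitude, the modulated field revealed after the main part.**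
`K3 = Kgs univ (BL N) FL' univ`. -/
theorem kpathG_upper (hl : 0 < lam) (hη : 0 ≤ η) (hx : 0 < x) (hn : 0 < n) (hm : Monotone BL)
    (h0 : BL 0 = ∅) (hN : N ≤ N') (hN' : BL N' = Finset.univ) (hF : FL ⊆ FL') :
    KL (Fm n b cB cF s lam η c) x ≤
      x ^ 2 / 2 * shr cF FL * Q1 n b cB cF s lam η c x S (Kset S ∅ FL) +
      ∑ l ∈ Finset.range N, x ^ 2 * b ^ 2 / (2 * n) * (shr cB (BL (l + 1)) - shr cB (BL l)) *
        Q2 n b cB cF s lam η c x S (Kset S (BL (l + 1)) FL) +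
      x ^ 2 / 2 * (b ^ 2 / n * shr cB (BL N) * (2 * ((n - S.card : ℝ) / n)) *
          Q2 n b cB cF s lam η c x Finset.univ (Kgs Finset.univ (BL N) FL' Finset.univ) +
        (shr cF FL' - shr cF FL + (n - S.card : ℝ) / n * shr cF FL) *
          Q1 n b cB cF s lam η c x Finset.univ (Kgs Finset.univ (BL N) FL' Finset.univ) +
        s ^ 2 * QG n b cB cF s lam η c x Finset.univ
          (Kgs Finset.univ (BL N) FL' Finset.univ)) +
      ∑ l ∈ Finset.Ico N N', x ^ 2 * b ^ 2 / (2 * n) *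
        (shr cB (BL (l + 1)) - shr cB (BL l)) *
          Q2 n b cB cF s lam η c x Finset.univ
            (Kgs Finset.univ (BL (l + 1)) FL' Finset.univ) +
      x ^ 2 / 2 * (n * (shr cF Finset.univ - shr cF FL')) := by
  have hG := gmA (n := n) b cB cF s hl hη c
  have hA1 : ∀ i z, avm (muA (Xs n) lam η c) 1 (Sm (n := n) b cB cF s η)
      (fun w => sp w.2 i) z ^ 2 ≤ 1 := by
    intro i z
    have h1 := hG.abs_av_le 1 (bm_sp (n := n) i).meas (C := 1)
      (fun w => H281.U.abs_sp w.2 i) z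
    rw [← sq_abs]
    nlinarith [abs_nonneg (avm (muA (Xs n) lam η c) 1 (Sm b cB cF s η) (fun w => sp w.2 i) z)]
  have hA0 : ∀ i z, avm (muA (Xs n) lam η c) 1 (Sm (n := n) b cB cF s η)
      (fun w => al η w.1 * sp w.2 i) z ^ 2 ≤ (1 + η) ^ 2 := by
    intro i z
    have h1 := hG.abs_av_le 1 (bm_fsp (n := n) (measurable_al η) (abs_al_le' hη) i).meas
      (C := 1 + η) (fun w => by
        rw [abs_mul]
        have h2 := H281.U.abs_sp w.2 i
        have h3 := abs_al_le' hη w.1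
        nlinarith [abs_nonneg (al η w.1), abs_nonneg (sp w.2 i)]) z
    rw [← sq_abs]
    exact pow_le_pow_left₀ (abs_nonneg _) h1 2
  have h := (lev_single (n := n) b cB cF s c hl hη).upper (S := S) (G := Finset.univ) (Bl := BL)
    (Fl := fun _ => FL') (FL := FL) (N := N) (N' := N') hx hn hm monotone_const h0 hN hN' hF
    (fun _ _ => by simp) (a1 := fun _ => 1) (fun _ => hA1) hA0
  have e1 : ∀ (T : Finset LF) (S : Finset (Fin n)) (K : Finset (Co n LB LF)),
      q1s x (Fm n b cB cF s lam η c) cF (fun _ i => avm (muA (Xs n) lam η c) 1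
        (Sm b cB cF s η) fun w => sp w.2 i) T S K =
        shr cF T * Q1 n b cB cF s lam η c x S K := by
    intro T S K
    unfold q1s shr
    rw [Finset.sum_mul]
    refine Finset.sum_congr rfl fun l _ => ?_
    rw [q1_eq b cB cF s c hl hη]
  simp only [← sh_sdiff _ (hm (Nat.le_succ _)), sh_bond, q2_eq b cB cF s c hl hη, e1,
    qG_eq b cB cF s c hl hη, Finset.sdiff_self, mul_one, Finset.card_univ, Fintype.card_fin,
    sub_self, zero_mul, add_zero] at h
  have e3 : shr cF (∅ : Finset LF) = 0 := by unfold shr; simp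
  have e4 : shr cF (FL' \ FL) = shr cF FL' - shr cF FL := by
    unfold shr
    rw [← Finset.sum_sdiff hF]
    ring
  have e5 : ∑ l ∈ FL'ᶜ, cF l ^ 2 = shr cF Finset.univ - shr cF FL' := by
    unfold shr
    rw [← Finset.sum_compl_add_sum FL']
    ring
  simp only [e3, e4, e5, zero_mul, add_zero] at h
  refine h.trans (le_of_eq ?_)
  have e6 : ∀ (f : ℕ → ℝ) (l : ℕ), x ^ 2 / 2 * ((b ^ 2 / n * shr cB (BL (l + 1)) -
      b ^ 2 / n * shr cB (BL l)) * f l) =
      x ^ 2 * b ^ 2 / (2 * n) * (shr cB (BL (l + 1)) - shr cB (BL l)) * f l := by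
    intro f l
    ring
  simp only [e6 fun l => Q2 n b cB cF s lam η c x S (Kset S (BL (l + 1)) FL),
    e6 fun l => Q2 n b cB cF s lam η c x Finset.univ
      (Kgs Finset.univ (BL (l + 1)) FL' Finset.univ)]
  ring

end single

/-! ### the ensemble `U` -/

section U

variable {Th : Type} [MeasurableSpace Th]

/-- `E_x ∑_(p inside S) (cx K <σσ>)^2` -/
noncomputable def QU2 (n : ℕ) (ν : Measure Th) (b : ℝ) (cB : LB → ℝ) (cF : LF → ℝ)
    (a : LF → Th → ℝ) (x : ℝ) (S : Finset (Fin n)) (K : Finset (Co n LB LF)) : ℝ :=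
  ex (g1 _) (Zxm (muU ν n) 1 (SU b cB cF a) x) fun z => ∑ p ∈ ps S,
    cx (g1 _) K (Zxm (muU ν n) 1 (SU b cB cF a) x)
      (avm (muU ν n) 1 (SU b cB cF a) fun w => SkS p w.2) z ^ 2

/-- `E_x ∑_(i in S) (cx K <f σ>)^2` -/
noncomputable def QU1 (n : ℕ) (ν : Measure Th) (b : ℝ) (cB : LB → ℝ) (cF : LF → ℝ)
    (a : LF → Th → ℝ) (x : ℝ) (f : Th → ℝ) (S : Finset (Fin n)) (K : Finset (Co n LB LF)) :
    ℝ :=
  ex (g1 _) (Zxm (muU ν n) 1 (SU b cB cF a) x) fun z => ∑ i ∈ S,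
    cx (g1 _) K (Zxm (muU ν n) 1 (SU b cB cF a) x)
      (avm (muU ν n) 1 (SU b cB cF a) fun w => f w.1 * sp w.2 i) z ^ 2

variable {ν : Measure Th} {a : LF → Th → ℝ} {η x : ℝ}

section eqs

variable (hν : IsFiniteMeasure ν) (h0 : ν ≠ 0) (hA : AmU a η)
include hν h0 hA

/-- **the ensemble `U` is a levelled functional** -/
theorem lev_U :
    LevU (lzm (muU ν n) 1 (SU b cB cF a)) (Dm (muU ν n) 1 (SU b cB cF a))
      (Km (Co n LB LF) 1 (MU n b cB cF η)) (3 * Km (Co n LB LF) 1 (MU n b cB cF η) ^ 2)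
      (fun l => b / √n * cB l) cF 0
      (fun p => avm (muU ν n) 1 (SU b cB cF a) fun w => SkS p w.2)
      (fun l i => avm (muU ν n) 1 (SU b cB cF a) fun w => a l w.1 * sp w.2 i)
      (fun _ _ => 0) := by
  have hG := gmU (n := n) b cB cF η hν h0 hA
  have hf : ∀ l (i : Fin n), Bm fun w : Th × Xs n => a l w.1 * sp w.2 i := fun l i =>
    bm_fsp (hA.meas l) (hA.abs l) i
  refine ⟨hG.c11 1, fun p l z => ?_, fun i l z => ?_, fun i z => ?_, fun π z => ?_,
    fun π p z => ?_, fun l π i z => ?_, fun p => bm hG 1 (bm_SkSU p),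
    fun l i => bm hG 1 (hf l i), fun i => ⟨measurable_const, 0, fun _ => by simp⟩⟩
  · unfold Dm
    rw [one_mul, ← H196.av_mul]
    rfl
  · unfold Dm
    rw [one_mul, ← H196.av_mul]
    congr 1
    funext w
    rw [SU_fd, mul_assoc]
  · unfold Dm
    have e1 : SU b cB cF a (gd LB LF i) = fun _ : Th × Xs n => (0 : ℝ) * 0 := by
      funext w
      rw [SU_gd, mul_zero]
    rw [e1, H196.av_mul]
    ring
  · exact (symPU b cB cF a hν π).lz 1 z
  · show avm _ 1 _ _ (ac (cP LB LF π) (fun _ => 1) z) = _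
    rw [(symPU b cB cF a hν π).av 1]
    congr 1
    funext w
    exact (SkS_pf π p w.2).symm
  · show avm _ 1 _ _ (ac (cP LB LF π) (fun _ => 1) z) = _
    rw [(symPU b cB cF a hν π).av 1]
    rfl

lemma qU2_eq (S : Finset (Fin n)) (K : Finset (Co n LB LF)) :
    q2 x (lzm (muU ν n) 1 (SU b cB cF a))
      (fun p => avm (muU ν n) 1 (SU b cB cF a) fun w => SkS p w.2) S K =
      QU2 n ν b cB cF a x S K :=
  sum_en_ex (lev_U b cB cF hν h0 hA).lip x (lev_U b cB cF hν h0 hA).b2 (ps S) K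

lemma qU1_eq {f : Th → ℝ} (hf : Measurable f) {C : ℝ} (hC : ∀ θ, |f θ| ≤ C)
    (S : Finset (Fin n)) (K : Finset (Co n LB LF)) :
    q1 x (lzm (muU ν n) 1 (SU b cB cF a))
      (fun i => avm (muU ν n) 1 (SU b cB cF a) fun w => f w.1 * sp w.2 i) S K =
      QU1 n ν b cB cF a x f S K :=
  sum_en_ex (lev_U b cB cF hν h0 hA).lip x
    (fun i => bm (gmU (n := n) b cB cF η hν h0 hA) 1 (bm_fsp hf hC i)) S K

lemma qU1s_eq (FL : Finset LF) (S : Finset (Fin n)) (K : Finset (Co n LB LF)) :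
    q1s x (lzm (muU ν n) 1 (SU b cB cF a)) cF
      (fun l i => avm (muU ν n) 1 (SU b cB cF a) fun w => a l w.1 * sp w.2 i) FL S K =
      ∑ l ∈ FL, cF l ^ 2 * QU1 n ν b cB cF a x (a l) S K := by
  unfold q1s
  refine Finset.sum_congr rfl fun l _ => ?_
  rw [qU1_eq b cB cF hν h0 hA (hA.meas l) (hA.abs l)]

variable {S G : Finset (Fin n)} {Bl : ℕ → Finset LB} {Fl : ℕ → Finset LF} {FL : Finset LF}
  {N N' : ℕ}

/-- **K-path in the ensemble `U`, from below.** -/
theorem kpathU_lower (hx : 0 < x) (hm : Monotone Bl) :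
    ∑ l ∈ Finset.range N, x ^ 2 * b ^ 2 / (2 * n) * (shr cB (Bl (l + 1)) - shr cB (Bl l)) *
      QU2 n ν b cB cF a x S (Kset S (Bl l) FL) ≤
    KL (lzm (muU ν n) 1 (SU (n := n) b cB cF a)) x := by
  have h := (lev_U (n := n) b cB cF hν h0 hA).lower (S := S) (FL := FL) (N := N) hx hm
  simp only [← sh_sdiff _ (hm (Nat.le_succ _)), sh_bond, qU2_eq b cB cF hν h0 hA] at h
  refine le_trans (le_of_eq ?_) h
  refine Finset.sum_congr rfl fun l _ => ?_
  ring

/-- **K-path in the ensemble `U`, from above.** First the field levels `FL` on `S` and the bonds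
of `S` (`N` steps), then all the rows and the levels `Fl N`, then bonds and levels in any order,
last everything. -/
theorem kpathU_upper (hx : 0 < x) (hn : 0 < n) (hm : Monotone Bl) (hmF : Monotone Fl)
    (hB0 : Bl 0 = ∅) (hN : N ≤ N') (hN' : Bl N' = Finset.univ) (hF : FL ⊆ Fl N) {α : LF → ℝ}
    (hα : ∀ l θ, |a l θ| ≤ α l) :
    KL (lzm (muU ν n) 1 (SU (n := n) b cB cF a)) x ≤
      x ^ 2 / 2 * ∑ l ∈ FL, cF l ^ 2 * QU1 n ν b cB cF a x (a l) S (Kset S ∅ FL) +
      ∑ l ∈ Finset.range N, x ^ 2 * b ^ 2 / (2 * n) *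
        (shr cB (Bl (l + 1)) - shr cB (Bl l)) *
          QU2 n ν b cB cF a x S (Kset S (Bl (l + 1)) FL) +
      x ^ 2 / 2 * (b ^ 2 / n * shr cB (Bl N) * (2 * ((n - S.card : ℝ) / n)) *
          QU2 n ν b cB cF a x Finset.univ (Kset Finset.univ (Bl N) (Fl N)) +
        (∑ l ∈ Fl N \ FL, cF l ^ 2 *
            QU1 n ν b cB cF a x (a l) Finset.univ (Kset Finset.univ (Bl N) (Fl N)) +
          (n - S.card : ℝ) / n * ∑ l ∈ FL, cF l ^ 2 *
            QU1 n ν b cB cF a x (a l) Finset.univ (Kset Finset.univ (Bl N) (Fl N)))) +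
      ∑ l ∈ Finset.Ico N N', (x ^ 2 * b ^ 2 / (2 * n) *
        (shr cB (Bl (l + 1)) - shr cB (Bl l)) * QU2 n ν b cB cF a x Finset.univ
          (Kset Finset.univ (Bl (l + 1)) (Fl (l + 1))) +
        x ^ 2 / 2 * ∑ l' ∈ Fl (l + 1) \ Fl l, cF l' ^ 2 *
          QU1 n ν b cB cF a x (a l') Finset.univ
            (Kset Finset.univ (Bl (l + 1)) (Fl (l + 1)))) +
      x ^ 2 / 2 * (n * ∑ l ∈ (Fl N')ᶜ, cF l ^ 2 * α l ^ 2) := by
  have hGM := gmU (n := n) b cB cF η hν h0 hA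
  have hsq : ∀ {f : Th → ℝ} (_ : Measurable f) {C : ℝ} (_ : ∀ θ, |f θ| ≤ C) (i : Fin n) z,
      avm (muU ν n) 1 (SU b cB cF a) (fun w => f w.1 * sp w.2 i) z ^ 2 ≤ C ^ 2 := by
    intro f hf C hC i z
    have h1 := hGM.abs_av_le 1 (bm_fsp hf hC i).meas (C := C) (fun w => by
      rw [abs_mul]
      have h2 := H281.U.abs_sp w.2 i
      have h3 := hC w.1
      nlinarith [abs_nonneg (f w.1), abs_nonneg (sp w.2 i)]) z
    rw [← sq_abs]
    exact pow_le_pow_left₀ (abs_nonneg _) h1 2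
  have h := (lev_U (n := n) b cB cF hν h0 hA).upper (S := S) (G := ∅) hx hn hm hmF hB0 hN hN'
    hF (fun _ _ => by simp) (fun l i z => hsq (hA.meas l) (hα l) i z) (a0 := 0)
    (fun i z => by simp)
  simp only [← sh_sdiff _ (hm (Nat.le_succ _)), sh_bond, qU2_eq b cB cF hν h0 hA,
    qU1s_eq b cB cF hν h0 hA, Kgs_empty, mul_zero, add_zero, ne_eq, OfNat.ofNat_ne_zero,
    not_false_eq_true, zero_pow, zero_mul] at h
  refine h.trans (le_of_eq ?_)
  have e1 : ∀ (f : ℕ → ℝ) (l : ℕ), x ^ 2 / 2 * ((b ^ 2 / n * shr cB (Bl (l + 1)) -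
      b ^ 2 / n * shr cB (Bl l)) * f l) =
      x ^ 2 * b ^ 2 / (2 * n) * (shr cB (Bl (l + 1)) - shr cB (Bl l)) * f l := by
    intro f l
    ring
  have e2 : ∀ (f g : ℕ → ℝ) (l : ℕ), x ^ 2 / 2 * ((b ^ 2 / n * shr cB (Bl (l + 1)) -
      b ^ 2 / n * shr cB (Bl l)) * f l + g l) =
      x ^ 2 * b ^ 2 / (2 * n) * (shr cB (Bl (l + 1)) - shr cB (Bl l)) * f l +
        x ^ 2 / 2 * g l := by
    intro f g l
    ring
  simp only [e1 fun l => QU2 n ν b cB cF a x S (Kset S (Bl (l + 1)) FL),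
    e2 (fun l => QU2 n ν b cB cF a x Finset.univ
      (Kset Finset.univ (Bl (l + 1)) (Fl (l + 1)))) fun l =>
      ∑ l' ∈ Fl (l + 1) \ Fl l, cF l' ^ 2 * QU1 n ν b cB cF a x (a l') Finset.univ
        (Kset Finset.univ (Bl (l + 1)) (Fl (l + 1)))]

end eqs

end U

end ens

end Vale.Agent.P146.H119
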