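import Vale.Agent.P146.H425.VarKL
import Vale.Agent.P146.H877.Sph
import Vale.Agent.P146.H646.Blk

/-!
# P146: the entropy production split over revealed blocks (block KROW), part B

`w = exp (x F)`, `lwn x F K z = log (wn K w z)` the log-weight of the coordinates in `K`, and
`ent x F K` its mean under the law with density proportional to `w`.

* `KL_eq_ent`: `KL F x = ent univ - ent empty`;
* `ent_lower`: for `K ⊆ K'` and `K`-measurable `u` carried by `K' \ K`, `|u|^2 ≤ c < 1`,
  `ent K' - ent K ≥ E_x [ (u.z)^2 / 2 + log (1 - |u|^2) / 2 ]`;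
* `ent_mono`, `ent_lower'`: consequences;
* `ent_equiv`: invariance under the symmetries of `F`.
-/

open MeasureTheory ProbabilityTheory
open scoped ENNReal

namespace Vale.Agent.P146.H119

open Vale.Agent.P157.Lv hiding Dep
open Vale.Agent.P146.H425 Vale.Agent.P146.H646

set_option linter.unusedSectionVars false

/-- the reference family -/
noncomputable abbrev gm (κ : Type) : κ → Measure ℝ := fun _ => gaussianReal 0 1

variable {κ : Type} [Fintype κ] [DecidableEq κ] {F : (κ → ℝ) → ℝ} {x : ℝ} {K K' : Finset κ}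

/-- the log-weight of the coordinates in `K` -/
noncomputable def lwn (x : ℝ) (F : (κ → ℝ) → ℝ) (K : Finset κ) (z : κ → ℝ) : ℝ :=
  Real.log (wn (gm κ) K (fun z => Real.exp (x * F z)) z)

/-- its mean under the law with density proportional to `exp (x F)` -/
noncomputable def ent (x : ℝ) (F : (κ → ℝ) → ℝ) (K : Finset κ) : ℝ :=
  ex (gm κ) (fun z => Real.exp (x * F z)) (lwn x F K)

lemma norm_glue_right (K : Finset κ) (z a b : κ → ℝ) : ‖glue K z a - glue K z b‖ ≤ ‖a - b‖ := by
  refine (pi_norm_le_iff_of_nonneg (norm_nonneg _)).2 fun e => ?_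
  by_cases h : e ∈ K
  · simp [glue, h]
  · have := norm_le_pi_norm (a - b) e
    simpa [glue, h] using this

lemma norm_glue_left (K : Finset κ) (z a b : κ → ℝ) : ‖glue K a z - glue K b z‖ ≤ ‖a - b‖ := by
  refine (pi_norm_le_iff_of_nonneg (norm_nonneg _)).2 fun e => ?_
  by_cases h : e ∈ K
  · have := norm_le_pi_norm (a - b) e
    simpa [glue, h] using this
  · simp [glue, h]

lemma lip_glue_right (hF : Lip F) (K : Finset κ) (z : κ → ℝ) : Lip fun z' => F (glue K z z') := by
  obtain ⟨L, hL, h⟩ := hF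
  exact ⟨L, hL, fun a b => (h _ _).trans (mul_le_mul_of_nonneg_left (norm_glue_right K z a b) hL)⟩

lemma lip_glue_left (hF : Lip F) (K : Finset κ) (z' : κ → ℝ) : Lip fun z => F (glue K z z') := by
  obtain ⟨L, hL, h⟩ := hF
  exact ⟨L, hL, fun a b => (h _ _).trans (mul_le_mul_of_nonneg_left (norm_glue_left K z' a b) hL)⟩

/-- the weight is admissible -/
lemma wt_exp (hF : Lip F) (x : ℝ) : Wt (gm κ) fun z => Real.exp (x * F z) :=
  ⟨fun _ => Real.exp_pos _, (hF.exp_eg x).meas, fun K z =>
    ((lip_glue_right hF K z).exp_eg x).integrable⟩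

lemma exp_lwn (hF : Lip F) (K : Finset κ) (z : κ → ℝ) :
    Real.exp (lwn x F K z) = wn (gm κ) K (fun z => Real.exp (x * F z)) z :=
  Real.exp_log ((wt_exp hF x).wn_pos K z)

lemma dep_lwn (K : Finset κ) : H646.Dep K (lwn x F K) := by
  intro z z'
  unfold lwn
  rw [dep_wn K z z']

lemma lwn_univ (z : κ → ℝ) : lwn x F Finset.univ z = x * F z := by
  unfold lwn wn
  simp only [glue_univ, integral_const, probReal_univ, one_smul, Real.log_exp]

lemma lwn_empty (z : κ → ℝ) : lwn x F ∅ z = Real.log (∫ z, Real.exp (x * F z) ∂(gI κ)) := by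
  unfold lwn wn
  simp only [glue_empty]

/-- the log-weight is Lipschitz -/
lemma lip_lwn (hF : Lip F) (x : ℝ) (K : Finset κ) : Lip (lwn x F K) := by
  obtain ⟨L, hL, h⟩ := id hF
  have key : ∀ a b, lwn x F K a ≤ lwn x F K b + |x| * L * ‖a - b‖ := by
    intro a b
    have h1 : wn (gm κ) K (fun z => Real.exp (x * F z)) a ≤
        wn (gm κ) K (fun z => Real.exp (x * F z)) b * Real.exp (|x| * L * ‖a - b‖) := by
      unfold wn
      rw [← integral_mul_const]
      refine integral_mono ((wt_exp hF x).sec K a) (((wt_exp hF x).sec K b).mul_const _)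
        fun z' => ?_
      simp only
      rw [← Real.exp_add]
      refine Real.exp_le_exp.2 ?_
      have h2 := (h (glue K a z') (glue K b z')).trans
        (mul_le_mul_of_nonneg_left (norm_glue_left K z' a b) hL)
      have h3 : x * (F (glue K a z') - F (glue K b z')) ≤ |x| * (L * ‖a - b‖) := by
        refine (le_abs_self _).trans ?_
        rw [abs_mul]
        exact mul_le_mul_of_nonneg_left h2 (abs_nonneg x)
      linarith
    rw [← exp_lwn hF, ← exp_lwn hF, ← Real.exp_add] at h1
    exact Real.exp_le_exp.1 h1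
  refine ⟨|x| * L, by positivity, fun a b => ?_⟩
  rw [abs_le]
  have h1 := key a b
  have h2 := key b a
  rw [norm_sub_rev b a] at h2
  constructor <;> linarith

/-- The entropy production is the increment of `ent` from nothing to everything. -/
theorem KL_eq_ent (hF : Lip F) (x : ℝ) : KL F x = ent x F Finset.univ - ent x F ∅ := by
  have hw := wt_exp hF x
  have hA : 0 < ∫ z, Real.exp (x * F z) ∂(gI κ) := hw.tot_pos
  unfold ent ex KL
  simp only [lwn_univ, lwn_empty]
  rw [integral_mul_const, mul_div_assoc, mul_comm (∫ z, Real.exp (x * F z) ∂(gI κ)) (_ / _),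
    div_mul_cancel₀ _ hA.ne']
  congr 1
  have e : ∀ z, Real.exp (x * F z) * (x * F z) = x * (Real.exp (x * F z) * F z) := fun z => by ring
  simp only [e]
  rw [integral_const_mul]
  ring

/-- disintegration for nonnegative functions -/
lemma lintegral_glue (K : Finset κ) {f : (κ → ℝ) → ℝ≥0∞} (hf : Measurable f) :
    ∫⁻ z, ∫⁻ z', f (glue K z z') ∂(gI κ) ∂(gI κ) = ∫⁻ z, f z ∂(gI κ) := by
  have h := (mp_glue (gm κ) K).lintegral_comp hf
  have h2 := lintegral_prod (μ := gI κ) (ν := gI κ)
    (fun p : (κ → ℝ) × (κ → ℝ) => f (glue K p.1 p.2))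
    (hf.comp (measurable_glue K)).aemeasurable
  rw [← h, ← h2]

/-- the exponential moment of the square of a linear form -/
lemma lint_sq_lin {u : κ → ℝ} (hu : ∑ e, u e ^ 2 < 1) :
    ∫⁻ z, ENNReal.ofReal (Real.exp (1 / 2 * (∑ e, u e * z e) ^ 2)) ∂(gI κ) ≤
      ENNReal.ofReal (1 / Real.sqrt (1 - ∑ e, u e ^ 2)) := by
  set t := ∑ e, u e ^ 2 with ht
  have t0 : 0 ≤ t := Finset.sum_nonneg fun e _ => sq_nonneg _
  rcases t0.eq_or_lt with h | h
  · have hz : ∀ e, u e = 0 := by
      intro e
      have h1 : u e ^ 2 ≤ 0 := by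
        rw [h, ht]
        exact Finset.single_le_sum (f := fun e => u e ^ 2) (fun e _ => sq_nonneg _)
          (Finset.mem_univ e)
      nlinarith [sq_nonneg (u e)]
    have e1 : ∀ z : κ → ℝ, ENNReal.ofReal (Real.exp (1 / 2 * (∑ e, u e * z e) ^ 2)) = 1 := by
      intro z
      simp [hz]
    simp only [e1]
    rw [← h]
    simp
  · have hs : √t ≠ 0 := (Real.sqrt_pos.2 h).ne'
    have h1 : ∑ e, (u e / √t) ^ 2 ≤ 1 := by
      have : ∀ e, (u e / √t) ^ 2 = u e ^ 2 / t := fun e => by
        rw [div_pow, Real.sq_sqrt t0]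
      simp only [this]
      rw [← Finset.sum_div, ← ht, div_self h.ne']
    have h2 := H877.lint_sq h1 t0 hu
    refine le_trans (le_of_eq (lintegral_congr fun z => ?_)) h2
    congr 2
    have e2 : ∑ e, z e * (u e / √t) = (∑ e, u e * z e) / √t := by
      rw [Finset.sum_div]
      exact Finset.sum_congr rfl fun e _ => by ring
    rw [e2, div_pow, Real.sq_sqrt t0]
    field_simp

section lower

variable {u : κ → (κ → ℝ) → ℝ} {c : ℝ}

/-- **The lower bound (part B of KROW)**: `u` is `K`-measurable and carried by `K' \ K`. -/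
theorem ent_lower (hF : Lip F) (x : ℝ) (hK : K ⊆ K') (hd : ∀ e, H646.Dep K (u e))
    (hm : ∀ e, Measurable (u e)) (h0 : ∀ e, e ∉ K' \ K → ∀ z, u e z = 0)
    (hc : c < 1) (hs : ∀ z, ∑ e, u e z ^ 2 ≤ c) :
    ex (gm κ) (fun z => Real.exp (x * F z)) (fun z => 1 / 2 * (∑ e, u e z * z e) ^ 2 +
      1 / 2 * Real.log (1 - ∑ e, u e z ^ 2)) ≤ ent x F K' - ent x F K := by
  have hw := wt_exp hF x
  have hA : 0 < ∫ z, Real.exp (x * F z) ∂(gI κ) := hw.tot_pos
  have hc0 : 0 < 1 - c := by linarith
  set w : (κ → ℝ) → ℝ := fun z => Real.exp (x * F z) with hwd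
  set S : (κ → ℝ) → ℝ := fun z => ∑ e, u e z ^ 2 with hS
  set P : (κ → ℝ) → ℝ := fun z => 1 / 2 * (∑ e, u e z * z e) ^ 2 with hP
  set G : (κ → ℝ) → ℝ := fun z => 1 / 2 * Real.log (1 - S z) with hG
  set r : (κ → ℝ) → ℝ := fun z => lwn x F K z + (P z + G z) - lwn x F K' z with hr
  have S0 : ∀ z, 0 ≤ S z := fun z => Finset.sum_nonneg fun e _ => sq_nonneg _
  have mS : Measurable S := Finset.measurable_fun_sum _ fun e _ => (hm e).pow_const 2
  have ub : ∀ e z, |u e z| ≤ 1 := by
    intro e z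
    have h1 : u e z ^ 2 ≤ 1 := ((Finset.single_le_sum (f := fun e => u e z ^ 2)
      (fun e _ => sq_nonneg _) (Finset.mem_univ e)).trans (hs z)).trans hc.le
    rw [← sq_abs] at h1
    nlinarith [abs_nonneg (u e z)]
  have eu : ∀ e, EG (u e) := fun e => EG.of_bdd (hm e) (ub e)
  have eP : EG P := ((EG.sum _ fun e _ => (eu e).mul (EG.coord e)).pow 2).const_mul _
  have bG : ∀ z, |G z| ≤ |Real.log (1 - c)| := by
    intro z
    have h1 : 0 < 1 - S z := by have := hs z; simp only [hS] at this ⊢; linarith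
    have h2 : Real.log (1 - S z) ≤ 0 := Real.log_nonpos h1.le (by linarith [S0 z])
    have h3 : Real.log (1 - c) ≤ Real.log (1 - S z) :=
      Real.log_le_log hc0 (by have := hs z; simp only [hS] at this ⊢; linarith)
    rw [hG]
    simp only
    rw [abs_mul, abs_of_nonpos h2, abs_of_nonpos (h3.trans h2), abs_of_pos (by norm_num)]
    linarith
  have mG : Measurable G := ((measurable_const.sub mS).log).const_mul _
  have eG : EG G := EG.of_bdd mG bG
  have el : EG (lwn x F K) := (lip_lwn hF x K).eg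
  have el' : EG (lwn x F K') := (lip_lwn hF x K').eg
  have ew : EG w := hF.exp_eg x
  have er : EG r := (el.add (eP.add eG)).sub el'
  -- dependence
  have dS : H646.Dep K S := by
    intro z z'
    simp only [hS]
    exact Finset.sum_congr rfl fun e _ => by rw [hd e z z']
  have dG : H646.Dep K G := by
    intro z z'
    simp only [hG]
    rw [dS z z']
  have gP : ∀ z z', P (glue K z z') = 1 / 2 * (∑ e, u e z * z' e) ^ 2 := by
    intro z z'
    simp only [hP]
    congr 2
    refine Finset.sum_congr rfl fun e _ => ?_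
    rw [hd e z z']
    by_cases h : e ∈ K
    · rw [h0 e (fun h' => (Finset.mem_sdiff.1 h').2 h)]
      ring
    · rw [glue_not_mem h]
  have dP : H646.Dep K' P := by
    intro z z'
    simp only [hP]
    congr 2
    refine Finset.sum_congr rfl fun e _ => ?_
    rw [(hd e).mono hK z z']
    by_cases h : e ∈ K'
    · rw [glue_mem h]
    · rw [h0 e (fun h' => h (Finset.mem_sdiff.1 h').1)]
      ring
  have dr : H646.Dep K' r := by
    intro z z'
    simp only [hr]
    rw [(dep_lwn K).mono hK z z', dP z z', dG.mono hK z z', dep_lwn K' z z']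
  -- the key inequality
  have hwn : ∀ (L : Finset κ) (z : κ → ℝ), ∫⁻ z', ENNReal.ofReal (w (glue L z z')) ∂(gI κ) =
      ENNReal.ofReal (Real.exp (lwn x F L z)) := by
    intro L z
    rw [exp_lwn hF, ← ofReal_integral_eq_lintegral_ofReal (hw.sec L z)
      (Filter.Eventually.of_forall fun z' => (hw.pos _).le)]
    rfl
  have key : ∫⁻ z, ENNReal.ofReal (w z * Real.exp (r z)) ∂(gI κ) ≤
      ∫⁻ z, ENNReal.ofReal (w z) ∂(gI κ) := by
    have m1 : Measurable fun z => ENNReal.ofReal (w z * Real.exp (r z)) :=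
      (ew.meas.mul er.meas.exp).ennreal_ofReal
    rw [← lintegral_glue K' m1]
    have h1 : ∀ z, ∫⁻ z', ENNReal.ofReal (w (glue K' z z') * Real.exp (r (glue K' z z')))
        ∂(gI κ) = ENNReal.ofReal (Real.exp (lwn x F K z + G z)) *
          ENNReal.ofReal (Real.exp (P z)) := by
      intro z
      have h2 : ∀ z', ENNReal.ofReal (w (glue K' z z') * Real.exp (r (glue K' z z'))) =
          ENNReal.ofReal (w (glue K' z z')) * ENNReal.ofReal (Real.exp (r z)) := by
        intro z'
        rw [dr z z', ENNReal.ofReal_mul (hw.pos _).le]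
      simp only [h2]
      have m3 : Measurable fun z' => ENNReal.ofReal (w (glue K' z z')) :=
        (ew.meas.comp (measurable_glue_right K' z)).ennreal_ofReal
      rw [lintegral_mul_const _ m3, hwn K' z, ← ENNReal.ofReal_mul (Real.exp_pos _).le, ← ENNReal.ofReal_mul
        (Real.exp_pos _).le, ← Real.exp_add, ← Real.exp_add]
      congr 2
      simp only [hr]
      ring
    simp only [h1]
    have m2 : Measurable fun z => ENNReal.ofReal (Real.exp (lwn x F K z + G z)) *
        ENNReal.ofReal (Real.exp (P z)) :=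
      ((el.meas.add mG).exp.ennreal_ofReal).mul eP.meas.exp.ennreal_ofReal
    rw [← lintegral_glue K m2, ← lintegral_glue K ew.meas.ennreal_ofReal]
    refine lintegral_mono fun z => ?_
    simp only
    rw [hwn K z]
    have h3 : ∀ z', ENNReal.ofReal (Real.exp (lwn x F K (glue K z z') + G (glue K z z'))) *
        ENNReal.ofReal (Real.exp (P (glue K z z'))) =
        ENNReal.ofReal (Real.exp (lwn x F K z + G z)) *
          ENNReal.ofReal (Real.exp (1 / 2 * (∑ e, u e z * z' e) ^ 2)) := by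
      intro z'
      rw [dep_lwn K z z', dG z z', gP]
    simp only [h3]
    rw [lintegral_const_mul _ (by fun_prop)]
    have h4 : ∑ e, u e z ^ 2 < 1 := (hs z).trans_lt hc
    have h5 : 0 < 1 - S z := by simp only [hS]; linarith
    refine (mul_le_mul_right (lint_sq_lin h4) _).trans (le_of_eq ?_)
    rw [← ENNReal.ofReal_mul (Real.exp_pos _).le]
    congr 1
    have h6 : Real.exp (G z) = √(1 - S z) := by
      simp only [hG]
      rw [Real.sqrt_eq_rpow, Real.rpow_def_of_pos h5]
      congr 1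
      ring
    rw [Real.exp_add, h6]
    have h7 : √(1 - S z) ≠ 0 := (Real.sqrt_pos.2 h5).ne'
    simp only [hS] at h7 ⊢
    field_simp
  -- conclusion
  have iw := ew.integrable
  have nn : ∀ z, 0 ≤ w z * Real.exp (r z) := fun z =>
    mul_nonneg (hw.pos z).le (Real.exp_pos _).le
  have ie : Integrable (fun z => w z * Real.exp (r z)) (gI κ) := by
    refine ⟨(ew.meas.mul er.meas.exp).aestronglyMeasurable, ?_⟩
    rw [hasFiniteIntegral_iff_ofReal (Filter.Eventually.of_forall nn)]
    refine key.trans_lt ?_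
    rw [← ofReal_integral_eq_lintegral_ofReal iw (Filter.Eventually.of_forall fun z =>
      (hw.pos z).le)]
    exact ENNReal.ofReal_lt_top
  have h1 : ∫ z, w z * Real.exp (r z) ∂(gI κ) ≤ ∫ z, w z ∂(gI κ) := by
    rw [← ofReal_integral_eq_lintegral_ofReal ie (Filter.Eventually.of_forall nn),
      ← ofReal_integral_eq_lintegral_ofReal iw (Filter.Eventually.of_forall fun z =>
      (hw.pos z).le)] at key
    exact (ENNReal.ofReal_le_ofReal_iff hA.le).1 key
  have h2 : ∫ z, w z * r z ∂(gI κ) ≤ 0 := by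
    have h3 : ∫ z, w z * r z ∂(gI κ) ≤ ∫ z, w z * Real.exp (r z) - w z ∂(gI κ) := by
      refine integral_mono (ew.mul er).integrable (ie.sub iw) fun z => ?_
      simp only
      have h4 := mul_le_mul_of_nonneg_left (Real.add_one_le_exp (r z)) (hw.pos z).le
      linarith
    rw [integral_sub ie iw] at h3
    linarith
  have h3 : ∫ z, w z * r z ∂(gI κ) = ∫ z, w z * lwn x F K z ∂(gI κ) +
      ∫ z, w z * (P z + G z) ∂(gI κ) - ∫ z, w z * lwn x F K' z ∂(gI κ) := by
    rw [← integral_add (ew.mul el).integrable (ew.mul (eP.add eG)).integrable,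
      ← integral_sub ((ew.mul el).add (ew.mul (eP.add eG))).integrable (ew.mul el').integrable]
    congr 1
    funext z
    simp only [hr]
    ring
  unfold ent ex
  rw [← sub_div]
  refine div_le_div_of_nonneg_right ?_ hA.le
  have h4 : ∫ z, w z * (P z + G z) ∂(gI κ) ≤
      ∫ z, w z * lwn x F K' z ∂(gI κ) - ∫ z, w z * lwn x F K z ∂(gI κ) := by linarith
  exact h4

/-- `ent` is nondecreasing in the block. -/
theorem ent_mono (hF : Lip F) (x : ℝ) (hK : K ⊆ K') : ent x F K ≤ ent x F K' := by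
  have h := ent_lower (u := fun _ _ => 0) (c := 0) hF x hK (fun e z z' => rfl)
    (fun e => measurable_const) (fun _ _ _ => rfl) one_pos (fun z => by simp)
  have e : ex (gm κ) (fun z => Real.exp (x * F z)) (fun z => 1 / 2 * (∑ e : κ, (0 : ℝ) * z e) ^ 2 +
      1 / 2 * Real.log (1 - ∑ e : κ, (0 : ℝ) ^ 2)) = 0 := by
    unfold ex
    simp
  rw [e] at h
  linarith

lemma log_one_sub_ge {t : ℝ} (h0 : 0 ≤ t) (h1 : t ≤ 1 / 2) :
    -t - t ^ 2 / 2 - t ^ 3 ≤ Real.log (1 - t) := by
  have h2 : |t| < 1 := by rw [abs_of_nonneg h0]; linarith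
  have h3 := (abs_le.1 (Real.abs_log_sub_add_sum_range_le h2 4)).1
  simp only [Finset.sum_range_succ, Finset.sum_range_zero] at h3
  rw [abs_of_nonneg h0] at h3
  have h5 : t ^ (4 + 1) / (1 - t) ≤ 2 * t ^ 5 := by
    rw [div_le_iff₀ (by linarith)]
    have h6 : 0 ≤ t ^ 5 * (1 / 2 - t) := mul_nonneg (pow_nonneg h0 5) (by linarith)
    have h7 : 2 * t ^ 5 * (1 - t) - t ^ (4 + 1) = 2 * (t ^ 5 * (1 / 2 - t)) := by ring
    rw [← sub_nonneg, h7]
    exact mul_nonneg zero_le_two h6
  have h6 : t ^ 4 ≤ t ^ 3 * (1 / 2) := by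
    have := mul_le_mul_of_nonneg_left h1 (pow_nonneg h0 3)
    nlinarith [this]
  have h7 : t ^ 5 ≤ t ^ 3 * (1 / 4) := by
    have h8 : t ^ 2 ≤ 1 / 4 := by nlinarith
    have := mul_le_mul_of_nonneg_left h8 (pow_nonneg h0 3)
    nlinarith [this]
  norm_num at h3
  have h9 := pow_nonneg h0 3
  norm_num at h5
  linarith

/-- **The lower bound, polynomial form.** -/
theorem ent_lower' (hF : Lip F) (x : ℝ) (hK : K ⊆ K') (hd : ∀ e, H646.Dep K (u e))
    (hm : ∀ e, Measurable (u e)) (h0 : ∀ e, e ∉ K' \ K → ∀ z, u e z = 0)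
    (hs : ∀ z, ∑ e, u e z ^ 2 ≤ 1 / 2) :
    ex (gm κ) (fun z => Real.exp (x * F z)) (fun z => 1 / 2 * (∑ e, u e z * z e) ^ 2 -
      1 / 2 * (∑ e, u e z ^ 2) - 1 / 4 * (∑ e, u e z ^ 2) ^ 2 - 1 / 2 * (∑ e, u e z ^ 2) ^ 3) ≤
      ent x F K' - ent x F K := by
  refine le_trans ?_ (ent_lower hF x hK hd hm h0 (by norm_num) hs)
  have hw := wt_exp hF x
  have ub : ∀ e z, |u e z| ≤ 1 := by
    intro e z
    have h1 : u e z ^ 2 ≤ 1 := ((Finset.single_le_sum (f := fun e => u e z ^ 2)
      (fun e _ => sq_nonneg _) (Finset.mem_univ e)).trans (hs z)).trans (by norm_num)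
    rw [← sq_abs] at h1
    nlinarith [abs_nonneg (u e z)]
  have eu : ∀ e, EG (u e) := fun e => EG.of_bdd (hm e) (ub e)
  have eS : EG fun z => ∑ e, u e z ^ 2 := EG.sum _ fun e _ => (eu e).pow 2
  have eP : EG fun z : κ → ℝ => 1 / 2 * (∑ e, u e z * z e) ^ 2 :=
    ((EG.sum _ fun e _ => (eu e).mul (EG.coord e)).pow 2).const_mul _
  have S0 : ∀ z, 0 ≤ ∑ e, u e z ^ 2 := fun z => Finset.sum_nonneg fun e _ => sq_nonneg _
  have eG : EG fun z => 1 / 2 * Real.log (1 - ∑ e, u e z ^ 2) := by
    refine EG.of_bdd (((measurable_const.sub eS.meas).log).const_mul _)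
      (C := |Real.log (1 / 2)|) fun z => ?_
    have h1 : 0 < 1 - ∑ e, u e z ^ 2 := by have := hs z; linarith
    have h2 : Real.log (1 - ∑ e, u e z ^ 2) ≤ 0 := Real.log_nonpos h1.le (by linarith [S0 z])
    have h3 : Real.log (1 / 2) ≤ Real.log (1 - ∑ e, u e z ^ 2) :=
      Real.log_le_log (by norm_num) (by have := hs z; linarith)
    rw [abs_mul, abs_of_nonpos h2, abs_of_nonpos (h3.trans h2), abs_of_pos (by norm_num)]
    linarith
  unfold ex
  refine div_le_div_of_nonneg_right ?_ hw.tot_pos.le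
  refine integral_mono (((hF.exp_eg x).mul (((eP.sub (eS.const_mul _)).sub
    ((eS.pow 2).const_mul _)).sub ((eS.pow 3).const_mul _))).integrable)
    ((hF.exp_eg x).mul (eP.add eG)).integrable fun z => ?_
  simp only
  refine mul_le_mul_of_nonneg_left ?_ (hw.pos z).le
  have := log_one_sub_ge (S0 z) (hs z)
  linarith

end lower

/-- invariance of the log-weights under a symmetry of `F` -/
lemma lwn_equiv (hF : Lip F) (x : ℝ) {T : (κ → ℝ) → (κ → ℝ)}
    (hT : MeasurePreserving T (gI κ) (gI κ)) (hFT : ∀ z, F (T z) = F z)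
    (hg : ∀ z z', T (glue K z z') = glue K' (T z) (T z')) (z : κ → ℝ) :
    lwn x F K z = lwn x F K' (T z) := by
  unfold lwn wn
  congr 1
  have h := integral_map (μ := gI κ) (φ := T) hT.measurable.aemeasurable
      (f := fun z' => Real.exp (x * F (glue K' (T z) z')))
      (by rw [hT.map_eq]; exact ((wt_exp hF x).sec K' (T z)).aestronglyMeasurable)
  rw [hT.map_eq] at h
  rw [h]
  refine integral_congr_ae (Filter.Eventually.of_forall fun z' => ?_)
  simp only
  rw [← hg, hFT]

/-- invariance of `ent` under a symmetry of `F` -/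
theorem ent_equiv (hF : Lip F) (x : ℝ) {T : (κ → ℝ) → (κ → ℝ)}
    (hT : MeasurePreserving T (gI κ) (gI κ)) (hFT : ∀ z, F (T z) = F z)
    (hg : ∀ z z', T (glue K z z') = glue K' (T z) (T z')) : ent x F K = ent x F K' := by
  unfold ent
  rw [← ex_equiv (wt_exp hF x) hT (fun z => by rw [hFT]) (lip_lwn hF x K').measurable]
  congr 1
  funext z
  exact lwn_equiv hF x hT hFT hg z

/-- The chain rule: the entropy production is the sum of the increments along any increasing
chain of blocks. -/
theorem KL_eq_sum (hF : Lip F) (x : ℝ) (S : ℕ → Finset κ) (m : ℕ) (h0 : S 0 = ∅)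
    (hm : S m = Finset.univ) :
    KL F x = ∑ k ∈ Finset.range m, (ent x F (S (k + 1)) - ent x F (S k)) := by
  rw [Finset.sum_range_sub (fun k => ent x F (S k)), h0, hm, KL_eq_ent hF]

end Vale.Agent.P146.H119
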