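import Vale.Agent.P146.H119.KrowB
import Vale.Agent.P146.H425.Tan

/-!
# P146: the entropy production split over revealed blocks (block KROW), part C

* `c11_sec`, `c11_cond`: freezing coordinates and averaging the hidden coordinates stay in `C11`;
* `ent_sub_eq`: the increment `ent K' - ent K` is the mean of the conditional entropy production;
* `ent_upper`: `ent K' - ent K ≤ (x^2/2) E_x sum_(K' \ K) (cx K' D_e)^2` (any `K ⊆ K'`);
* `ent_ge_sq`: `(x^2/2) E_x sum_(K' \ K) (cx K D_e)^2 ≤ ent K' - ent K`.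
-/

open MeasureTheory ProbabilityTheory
open scoped ENNReal

namespace Vale.Agent.P146.H119

open Vale.Agent.P157.Lv hiding Dep
open Vale.Agent.P146.H425 Vale.Agent.P146.H646

set_option linter.unusedSectionVars false

variable {κ : Type} [Fintype κ] [DecidableEq κ] {F : (κ → ℝ) → ℝ} {x : ℝ} {K K' : Finset κ}
  {D : κ → (κ → ℝ) → ℝ} {B L : ℝ}

lemma norm_glue_zero_right (K : Finset κ) (w : κ → ℝ) : ‖glue K 0 w‖ ≤ ‖w‖ := by
  have := norm_glue_right K 0 w 0
  rwa [glue_self, sub_zero, sub_zero] at this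

lemma norm_glue_zero_left (K : Finset κ) (w : κ → ℝ) : ‖glue K w 0‖ ≤ ‖w‖ := by
  have := norm_glue_left K 0 w 0
  rwa [glue_self, sub_zero, sub_zero] at this

lemma glue_add_right (K : Finset κ) (z y w : κ → ℝ) :
    glue K z (y + w) = glue K z y + glue K 0 w := by
  funext e
  by_cases h : e ∈ K <;> simp [glue, h]

lemma glue_add_left (K : Finset κ) (z y w : κ → ℝ) :
    glue K (y + w) z = glue K y z + glue K w 0 := by
  funext e
  by_cases h : e ∈ K <;> simp [glue, h]

/-- freezing the coordinates in `K` -/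
lemma c11_sec (h : C11 F D B L) (K : Finset κ) (z : κ → ℝ) :
    C11 (fun z' => F (glue K z z')) (fun e z' => if e ∈ K then 0 else D e (glue K z z')) B L := by
  refine ⟨h.B0, h.L0, fun y w => ?_, fun e => ?_, fun e y => ?_, fun y w => ?_⟩
  · rw [glue_add_right]
    exact (h.lip _ _).trans (mul_le_mul_of_nonneg_left (norm_glue_zero_right K w) h.B0)
  · by_cases he : e ∈ K
    · simp only [he, if_true]
      exact measurable_const
    · simp only [he, if_false]
      exact (h.meas e).comp (measurable_glue_right K z)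
  · by_cases he : e ∈ K
    · simp only [he, if_true, abs_zero]
      exact h.B0
    · simp only [he, if_false]
      exact h.bd e _
  · rw [glue_add_right]
    have h1 := h.quad (glue K z y) (glue K 0 w)
    have h2 : ∑ e, D e (glue K z y) * glue K 0 w e =
        ∑ e, (if e ∈ K then 0 else D e (glue K z y)) * w e := by
      refine Finset.sum_congr rfl fun e _ => ?_
      by_cases he : e ∈ K <;> simp [glue, he]
    rw [h2] at h1
    refine h1.trans (mul_le_mul_of_nonneg_left ?_ h.L0)
    exact pow_le_pow_left₀ (norm_nonneg _) (norm_glue_zero_right K w) 2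

/-- averaging over the coordinates off `K` -/
theorem c11_cond (h : C11 F D B L) (hx : 0 < x) (K : Finset κ) :
    C11 (fun z => 1 / x * lwn x F K z)
      (fun e z => if e ∈ K then cx (gm κ) K (fun z => Real.exp (x * F z)) (D e) z else 0) B
      (L + 2 * x * (Fintype.card κ * B) ^ 2) := by
  have hF : Lip F := h.lip.lip h.B0
  have hw := wt_exp hF x
  have bD : ∀ e, BM (D e) := fun e => ⟨h.meas e, B, h.bd e⟩
  have hB := h.B0
  have hN : (0 : ℝ) ≤ Fintype.card κ := Nat.cast_nonneg _
  have hpos := fun y => hw.wn_pos K y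
  have eq : ∀ y, EG fun z => Real.exp (x * F (glue K y z)) := fun y =>
    (lip_glue_right hF K y).exp_eg x
  have eD : ∀ e y, EG fun z => D e (glue K y z) := fun e y =>
    EG.of_bdd ((h.meas e).comp (measurable_glue_right K y)) fun z => h.bd e _
  have hU : ∀ y, Real.exp (x * (1 / x * lwn x F K y)) =
      ∫ z, Real.exp (x * F (glue K y z)) ∂(gI κ) := by
    intro y
    rw [← mul_assoc, mul_one_div_cancel hx.ne', one_mul, exp_lwn hF]
    rfl
  have hL : LipB (fun z => 1 / x * lwn x F K z) B := by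
    have key : ∀ y w, 1 / x * lwn x F K (y + w) ≤ 1 / x * lwn x F K y + B * ‖w‖ := by
      intro y w
      have h1 : Real.exp (x * (1 / x * lwn x F K (y + w))) ≤
          Real.exp (x * (1 / x * lwn x F K y + B * ‖w‖)) := by
        rw [mul_add, Real.exp_add, hU, hU, ← integral_mul_const]
        refine integral_mono (eq _).integrable ((eq _).integrable.mul_const _) fun z => ?_
        simp only
        rw [← Real.exp_add]
        refine Real.exp_le_exp.2 ?_
        have h2 := (le_abs_self _).trans (h.lip (glue K y z) (glue K w 0))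
        have h3 : B * ‖glue K w 0‖ ≤ B * ‖w‖ :=
          mul_le_mul_of_nonneg_left (norm_glue_zero_left K w) hB
        rw [glue_add_left, ← mul_add]
        exact mul_le_mul_of_nonneg_left (by linarith) hx.le
      exact le_of_mul_le_mul_left (Real.exp_le_exp.1 h1) hx
    intro y w
    simp only
    rw [abs_le]
    have h1 := key y w
    have h2 := key (y + w) (-w)
    rw [add_neg_cancel_right, norm_neg] at h2
    constructor <;> linarith
  refine ⟨hB, ?_, hL, fun e => ?_, fun e y => ?_, fun y w => ?_⟩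
  · have := h.L0
    positivity
  · by_cases he : e ∈ K
    · simp only [he, if_true]
      exact (hw.bm_cx K (bD e)).meas
    · simp only [he, if_false]
      exact measurable_const
  · by_cases he : e ∈ K
    · simp only [he, if_true]
      exact hw.abs_cx_le K (bD e) (h.bd e) y
    · simp only [he, if_false, abs_zero]
      exact hB
  · set v : κ → ℝ := glue K w 0 with hv
    have hvw : ‖v‖ ≤ ‖w‖ := norm_glue_zero_left K w
    set t : (κ → ℝ) → ℝ := fun z => x * ∑ e, D e (glue K y z) * v e with ht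
    set τ : ℝ := x * (Fintype.card κ * (B * ‖w‖)) with hτ
    have hb : ∀ z, |t z| ≤ τ := by
      intro z
      rw [ht, hτ]
      simp only
      rw [abs_mul, abs_of_pos hx]
      refine mul_le_mul_of_nonneg_left ?_ hx.le
      refine (abs_sum_le hB fun e => h.bd e _).trans ?_
      exact mul_le_mul_of_nonneg_left (mul_le_mul_of_nonneg_left hvw hB) hN
    have mt : Measurable t := by
      refine Measurable.const_mul ?_ x
      exact Finset.measurable_fun_sum _ fun e _ =>
        (((h.meas e).comp (measurable_glue_right K y)).mul_const _)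
    have hA0 : 0 < ∫ z, Real.exp (x * F (glue K y z)) ∂(gI κ) := hpos y
    obtain ⟨h1, h2⟩ := tilt_exp (eq y) (fun z => (Real.exp_pos _).le) hA0 mt hb
    have hT : (∫ z, Real.exp (x * F (glue K y z)) * t z ∂(gI κ)) /
        ∫ z, Real.exp (x * F (glue K y z)) ∂(gI κ) =
        x * ∑ e, (if e ∈ K then cx (gm κ) K (fun z => Real.exp (x * F z)) (D e) y else 0) *
          w e := by
      have e1 : ∀ z, Real.exp (x * F (glue K y z)) * t z =
          ∑ e, (x * v e) * (Real.exp (x * F (glue K y z)) * D e (glue K y z)) := by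
        intro z
        rw [ht]
        simp only
        rw [Finset.mul_sum, Finset.mul_sum]
        exact Finset.sum_congr rfl fun e _ => by ring
      simp_rw [e1]
      rw [integral_finsetSum _ fun e _ =>
        (((eq y).mul (eD e y)).integrable.const_mul _), Finset.sum_div, Finset.mul_sum]
      refine Finset.sum_congr rfl fun e _ => ?_
      rw [integral_const_mul]
      by_cases he : e ∈ K
      · simp only [he, if_true, hv, glue]
        unfold cx wn
        ring
      · simp [he, hv, glue]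
    rw [hT] at h1 h2
    set A := ∫ z, Real.exp (x * F (glue K y z)) ∂(gI κ) with hA
    set S := ∑ e, (if e ∈ K then cx (gm κ) K (fun z => Real.exp (x * F z)) (D e) y else 0) * w e
      with hS
    have ee : EG fun z => Real.exp (t z) := EG.of_bdd mt.exp (C := Real.exp τ) fun z => by
      rw [abs_of_pos (Real.exp_pos _)]
      exact Real.exp_le_exp.2 ((le_abs_self _).trans (hb z))
    have i2 := ((eq y).mul ee).integrable
    have hq : ∀ z, |x * F (glue K (y + w) z) - x * F (glue K y z) - t z| ≤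
        x * (L * ‖w‖ ^ 2) := by
      intro z
      have h3 := h.quad (glue K y z) v
      rw [glue_add_left, ht]
      simp only
      rw [← mul_sub, ← mul_sub, abs_mul, abs_of_pos hx]
      refine mul_le_mul_of_nonneg_left (h3.trans ?_) hx.le
      exact mul_le_mul_of_nonneg_left (pow_le_pow_left₀ (norm_nonneg _) hvw 2) h.L0
    have hWw := hU (y + w)
    have hWy := hU y
    rw [← hA] at hWy
    set U1 := 1 / x * lwn x F K (y + w) with hU1
    set U0 := 1 / x * lwn x F K y with hU0
    have up : x * U1 ≤ x * U0 + x * S + 2 * τ ^ 2 + x * (L * ‖w‖ ^ 2) := by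
      rw [← Real.exp_le_exp, hWw]
      have h4 : ∫ z, Real.exp (x * F (glue K (y + w) z)) ∂(gI κ) ≤
          (∫ z, Real.exp (x * F (glue K y z)) * Real.exp (t z) ∂(gI κ)) *
            Real.exp (x * (L * ‖w‖ ^ 2)) := by
        rw [← integral_mul_const]
        refine integral_mono (eq _).integrable (i2.mul_const _) fun z => ?_
        simp only
        rw [← Real.exp_add, ← Real.exp_add]
        exact Real.exp_le_exp.2 (by linarith [(abs_le.1 (hq z)).2])
      refine h4.trans ((mul_le_mul_of_nonneg_right h2 (Real.exp_pos _).le).trans (le_of_eq ?_))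
      rw [← hWy, ← Real.exp_add, ← Real.exp_add]
      congr 1
      ring
    have lo : x * U0 + x * S - x * (L * ‖w‖ ^ 2) ≤ x * U1 := by
      rw [← Real.exp_le_exp, hWw]
      have h4 : (∫ z, Real.exp (x * F (glue K y z)) * Real.exp (t z) ∂(gI κ)) *
            Real.exp (-(x * (L * ‖w‖ ^ 2))) ≤ ∫ z, Real.exp (x * F (glue K (y + w) z)) ∂(gI κ) := by
        rw [← integral_mul_const]
        refine integral_mono (i2.mul_const _) (eq _).integrable fun z => ?_
        simp only
        rw [← Real.exp_add, ← Real.exp_add]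
        exact Real.exp_le_exp.2 (by linarith [(abs_le.1 (hq z)).1])
      refine le_trans (le_of_eq ?_)
        ((mul_le_mul_of_nonneg_right h1 (Real.exp_pos _).le).trans h4)
      rw [← hWy, ← Real.exp_add, ← Real.exp_add]
      congr 1
    have e5 : 2 * τ ^ 2 = x * (2 * x * (Fintype.card κ * B) ^ 2 * ‖w‖ ^ 2) := by
      rw [hτ]; ring
    have e6 : x * (U1 - U0 - S) ≤
        x * ((L + 2 * x * (Fintype.card κ * B) ^ 2) * ‖w‖ ^ 2) := by
      rw [e5] at up
      nlinarith [up]
    have e7 : x * (-((L + 2 * x * (Fintype.card κ * B) ^ 2) * ‖w‖ ^ 2)) ≤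
        x * (U1 - U0 - S) := by
      have : 0 ≤ x * (2 * x * (Fintype.card κ * B) ^ 2 * ‖w‖ ^ 2) := by positivity
      nlinarith [lo, this]
    rw [abs_le]
    exact ⟨le_of_mul_le_mul_left e7 hx, le_of_mul_le_mul_left e6 hx⟩

/-- sections of functions of exponential growth -/
lemma eg_sec {f : (κ → ℝ) → ℝ} (hf : EG f) (K : Finset κ) (z : κ → ℝ) :
    EG fun z' => f (glue K z z') := by
  obtain ⟨C, a, hC, ha, h⟩ := hf.bdd
  refine ⟨hf.meas.comp (measurable_glue_right K z), C * Real.exp (a * ‖z‖), a, by positivity, ha,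
    fun z' => (h _).trans ?_⟩
  rw [mul_assoc, ← Real.exp_add, ← mul_add]
  refine mul_le_mul_of_nonneg_left (Real.exp_le_exp.2 (mul_le_mul_of_nonneg_left ?_ ha)) hC
  have h1 : glue K z z' = glue K z 0 + glue K 0 z' := by
    have := glue_add_right K z 0 z'
    rwa [zero_add] at this
  rw [h1]
  exact (norm_add_le _ _).trans (add_le_add (norm_glue_zero_left K z) (norm_glue_zero_right K z'))

/-- integrating out the coordinates off `K'` in a section, for a function of exponential growth -/
lemma sec_dep (hF : Lip F) (x : ℝ) (hK : K ⊆ K') {Q : (κ → ℝ) → ℝ} (hQ : EG Q)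
    (hd : H646.Dep K' Q) (z : κ → ℝ) :
    ∫ z', Real.exp (x * F (glue K z z')) * Q (glue K z z') ∂(gI κ) =
      ∫ z', Real.exp (lwn x F K' (glue K z z')) * Q (glue K z z') ∂(gI κ) := by
  have e1 : EG fun z' => Real.exp (x * F (glue K z z')) * Q (glue K z z') :=
    eg_sec ((hF.exp_eg x).mul hQ) K z
  have h1 := integral_glue (gm κ) K' e1.integrable
  rw [← h1]
  refine integral_congr_ae (Filter.Eventually.of_forall fun z' => ?_)
  simp only
  rw [exp_lwn hF]
  unfold wn
  rw [← integral_mul_const]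
  refine integral_congr_ae (Filter.Eventually.of_forall fun z'' => ?_)
  simp only
  rw [← glue_glue_of_subset hK, hd (glue K z z') z'']

lemma wn_wn (hF : Lip F) (x : ℝ) (hK : K ⊆ K') (z : κ → ℝ) :
    ∫ z', Real.exp (lwn x F K' (glue K z z')) ∂(gI κ) = Real.exp (lwn x F K z) := by
  have h := sec_dep hF x hK (Q := fun _ => 1) (EG.const 1) (fun _ _ => rfl) z
  simp only [mul_one] at h
  rw [← h, exp_lwn hF]
  rfl

/-- integrating out the coordinates off `K` -/
lemma int_dep (hF : Lip F) (x : ℝ) {Q : (κ → ℝ) → ℝ} (hQ : EG Q) (hd : H646.Dep K Q) :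
    ∫ z, Real.exp (x * F z) * Q z ∂(gI κ) = ∫ z, Real.exp (lwn x F K z) * Q z ∂(gI κ) := by
  have h := sec_dep hF x (Finset.empty_subset K) hQ hd 0
  simpa only [glue_empty] using h

lemma eg_exp_lwn (hF : Lip F) (x : ℝ) (K : Finset κ) : EG fun z => Real.exp (lwn x F K z) := by
  simpa only [one_mul] using (lip_lwn hF x K).exp_eg 1

section main

variable (h : C11 F D B L)
include h

/-- the conditional log-weight as a function of the coordinates off `K` -/
lemma c11_slice (hx : 0 < x) (K K' : Finset κ) (z : κ → ℝ) :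
    C11 (fun z' => 1 / x * lwn x F K' (glue K z z')) (fun e z' => if e ∈ K then 0 else
      if e ∈ K' then cx (gm κ) K' (fun z => Real.exp (x * F z)) (D e) (glue K z z') else 0) B
      (L + 2 * x * (Fintype.card κ * B) ^ 2) := c11_sec (c11_cond h hx K') K z

/-- the conditional entropy production of the coordinates in `K'` given those in `K` -/
noncomputable def ckl (x : ℝ) (F : (κ → ℝ) → ℝ) (K K' : Finset κ) (z : κ → ℝ) : ℝ :=
  KL (fun z' => 1 / x * lwn x F K' (glue K z z')) x

omit h in
lemma ckl_eq (hF : Lip F) (hx : 0 < x) (hK : K ⊆ K') (z : κ → ℝ) : ckl x F K K' z =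
    (∫ z', Real.exp (lwn x F K' (glue K z z')) * lwn x F K' (glue K z z') ∂(gI κ)) /
      Real.exp (lwn x F K z) - lwn x F K z := by
  unfold ckl KL
  have e1 : ∀ z', x * (1 / x * lwn x F K' (glue K z z')) = lwn x F K' (glue K z z') := by
    intro z'
    rw [← mul_assoc, mul_one_div_cancel hx.ne', one_mul]
  simp only [e1]
  rw [wn_wn hF x hK, Real.log_exp]
  have e2 : ∀ z', Real.exp (lwn x F K' (glue K z z')) * (1 / x * lwn x F K' (glue K z z')) =
      1 / x * (Real.exp (lwn x F K' (glue K z z')) * lwn x F K' (glue K z z')) := fun z' => by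
    ring
  simp only [e2]
  rw [integral_const_mul, ← mul_div_assoc, ← mul_assoc, mul_one_div_cancel hx.ne', one_mul]

omit h in
lemma dep_ckl (hF : Lip F) (hx : 0 < x) (hK : K ⊆ K') : H646.Dep K (ckl x F K K') := by
  intro z z'
  rw [ckl_eq hF hx hK, ckl_eq hF hx hK]
  simp only [glue_glue_left]
  rw [dep_lwn K z z']

omit h in
lemma meas_ckl (hF : Lip F) (hx : 0 < x) (hK : K ⊆ K') : Measurable (ckl x F K K') := by
  have e : ckl x F K K' = fun z => (∫ z', Real.exp (lwn x F K' (glue K z z')) *
      lwn x F K' (glue K z z') ∂(gI κ)) / Real.exp (lwn x F K z) - lwn x F K z := by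
    funext z
    exact ckl_eq hF hx hK z
  rw [e]
  have m0 := (lip_lwn hF x K').measurable
  have m1 : StronglyMeasurable (fun p : (κ → ℝ) × (κ → ℝ) =>
      Real.exp (lwn x F K' (glue K p.1 p.2)) * lwn x F K' (glue K p.1 p.2)) :=
    ((m0.comp (measurable_glue K)).exp.mul (m0.comp (measurable_glue K))).stronglyMeasurable
  have m2 : Measurable (lwn x F K) := (lip_lwn hF x K).measurable
  exact (m1.integral_prod_right.measurable.div m2.exp).sub m2

/-- the pointwise upper bound -/
lemma ckl_le (hx : 0 < x) (hK : K ⊆ K') (z : κ → ℝ) : ckl x F K K' z ≤ x ^ 2 / 2 *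
    ((∫ z', Real.exp (lwn x F K' (glue K z z')) * ∑ e ∈ K' \ K,
      cx (gm κ) K' (fun z => Real.exp (x * F z)) (D e) (glue K z z') ^ 2 ∂(gI κ)) /
      Real.exp (lwn x F K z)) := by
  have hF : Lip F := h.lip.lip h.B0
  have h1 := KL_le_grad (c11_slice h hx K K' z) hx
  have e1 : ∀ z', x * (1 / x * lwn x F K' (glue K z z')) = lwn x F K' (glue K z z') := by
    intro z'
    rw [← mul_assoc, mul_one_div_cancel hx.ne', one_mul]
  have e2 : ∀ z', ∑ e, (if e ∈ K then 0 else if e ∈ K' then
      cx (gm κ) K' (fun z => Real.exp (x * F z)) (D e) (glue K z z') else 0) ^ 2 =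
      ∑ e ∈ K' \ K, cx (gm κ) K' (fun z => Real.exp (x * F z)) (D e) (glue K z z') ^ 2 := by
    intro z'
    rw [← Finset.sum_subset (Finset.subset_univ (K' \ K))]
    · refine Finset.sum_congr rfl fun e he => ?_
      obtain ⟨h2, h3⟩ := Finset.mem_sdiff.1 he
      simp [h2, h3]
    · intro e _ he
      by_cases h2 : e ∈ K
      · simp [h2]
      · have h3 : e ∉ K' := fun h3 => he (Finset.mem_sdiff.2 ⟨h3, h2⟩)
        simp [h2, h3]
  simp only [e1, e2] at h1
  rw [wn_wn hF x hK] at h1
  exact h1

/-- the pointwise lower bound -/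
lemma le_ckl (hx : 0 < x) (hK : K ⊆ K') (z : κ → ℝ) : x ^ 2 / 2 * ∑ e ∈ K' \ K,
    cx (gm κ) K (fun z => Real.exp (x * F z)) (D e) z ^ 2 ≤ ckl x F K K' z := by
  have hF : Lip F := h.lip.lip h.B0
  have hw := wt_exp hF x
  have bD : ∀ e, BM (D e) := fun e => ⟨h.meas e, B, h.bd e⟩
  have h1 := KL_ge (c11_slice h hx K K' z) hx
  have e1 : ∀ z', x * (1 / x * lwn x F K' (glue K z z')) = lwn x F K' (glue K z z') := by
    intro z'
    rw [← mul_assoc, mul_one_div_cancel hx.ne', one_mul]
  simp only [e1] at h1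
  rw [wn_wn hF x hK] at h1
  refine le_trans (le_of_eq ?_) h1
  congr 1
  rw [← Finset.sum_subset (Finset.subset_univ (K' \ K))]
  · refine Finset.sum_congr rfl fun e he => ?_
    obtain ⟨h2, h3⟩ := Finset.mem_sdiff.1 he
    simp only [h2, h3, if_true, if_false]
    congr 1
    have b1 := hw.bm_cx K' (bD e)
    obtain ⟨C, hC⟩ := b1.bd
    have e3 : EG (cx (gm κ) K' (fun z => Real.exp (x * F z)) (D e)) := EG.of_bdd b1.meas hC
    rw [← sec_dep hF x hK e3 (dep_cx K') z, exp_lwn hF, ← cx_cx hw hK (bD e) z]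
    rfl
  · intro e _ he
    by_cases h2 : e ∈ K
    · simp [h2]
    · have h3 : e ∉ K' := fun h3 => he (Finset.mem_sdiff.2 ⟨h3, h2⟩)
      simp [h2, h3]

lemma ckl_nonneg (hx : 0 < x) (hK : K ⊆ K') (z : κ → ℝ) : 0 ≤ ckl x F K K' z :=
  le_trans (mul_nonneg (by positivity) (Finset.sum_nonneg fun e _ => sq_nonneg _))
    (le_ckl h hx hK z)

lemma ckl_bd (hx : 0 < x) (hK : K ⊆ K') (z : κ → ℝ) :
    |ckl x F K K' z| ≤ x ^ 2 / 2 * (Fintype.card κ * B ^ 2) := by
  have hF : Lip F := h.lip.lip h.B0
  have hw := wt_exp hF x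
  have bD : ∀ e, BM (D e) := fun e => ⟨h.meas e, B, h.bd e⟩
  rw [abs_of_nonneg (ckl_nonneg h hx hK z)]
  refine (ckl_le h hx hK z).trans (mul_le_mul_of_nonneg_left ?_ (by positivity))
  rw [div_le_iff₀ (Real.exp_pos _), ← wn_wn hF x hK z, ← integral_const_mul]
  have e0 : EG fun z' => Real.exp (lwn x F K' (glue K z z')) := eg_sec (eg_exp_lwn hF x K') K z
  have b1 : ∀ e, BM (cx (gm κ) K' (fun z => Real.exp (x * F z)) (D e)) := fun e =>
    hw.bm_cx K' (bD e)
  have e1 : EG fun z' => ∑ e ∈ K' \ K,
      cx (gm κ) K' (fun z => Real.exp (x * F z)) (D e) (glue K z z') ^ 2 := by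
    refine EG.sum _ fun e _ => EG.pow ?_ 2
    obtain ⟨C, hC⟩ := (b1 e).bd
    exact EG.of_bdd ((b1 e).meas.comp (measurable_glue_right K z)) fun z' => hC _
  refine integral_mono (e0.mul e1).integrable (e0.integrable.const_mul _) fun z' => ?_
  simp only
  rw [mul_comm]
  refine mul_le_mul_of_nonneg_right ?_ (Real.exp_pos _).le
  have h2 : ∀ e ∈ K' \ K, cx (gm κ) K' (fun z => Real.exp (x * F z)) (D e) (glue K z z') ^ 2 ≤
      B ^ 2 := fun e _ => by
    rw [← sq_abs]
    exact pow_le_pow_left₀ (abs_nonneg _) (hw.abs_cx_le K' (bD e) (h.bd e) _) 2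
  refine (Finset.sum_le_card_nsmul _ _ _ h2).trans ?_
  rw [nsmul_eq_mul]
  refine mul_le_mul_of_nonneg_right ?_ (sq_nonneg B)
  exact_mod_cast Finset.card_le_univ _

/-- **The increment of `ent` is the mean conditional entropy production.** -/
theorem ent_sub_eq (hx : 0 < x) (hK : K ⊆ K') : ent x F K' - ent x F K =
    ex (gm κ) (fun z => Real.exp (x * F z)) (ckl x F K K') := by
  have hF : Lip F := h.lip.lip h.B0
  have hw := wt_exp hF x
  have ec : EG (ckl x F K K') := EG.of_bdd (meas_ckl hF hx hK) (ckl_bd h hx hK)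
  have el := (lip_lwn hF x K).eg
  have el' := (lip_lwn hF x K').eg
  have e0 := eg_exp_lwn hF x K
  have e0' := eg_exp_lwn hF x K'
  unfold ent ex
  rw [← sub_div]
  congr 1
  rw [int_dep hF x el' (dep_lwn K'), int_dep hF x el (dep_lwn K),
    int_dep hF x ec (dep_ckl hF hx hK), sub_eq_iff_eq_add,
    ← integral_add (e0.mul ec).integrable (e0.mul el).integrable,
    ← integral_glue (gm κ) K (e0'.mul el').integrable]
  refine integral_congr_ae (Filter.Eventually.of_forall fun z => ?_)
  simp only
  rw [ckl_eq hF hx hK]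
  have := (Real.exp_pos (lwn x F K z)).ne'
  field_simp
  ring

/-- **The crude upper bound (log-Sobolev).** -/
theorem ent_upper (hx : 0 < x) (hK : K ⊆ K') : ent x F K' - ent x F K ≤ x ^ 2 / 2 *
    ex (gm κ) (fun z => Real.exp (x * F z)) (fun z => ∑ e ∈ K' \ K,
      cx (gm κ) K' (fun z => Real.exp (x * F z)) (D e) z ^ 2) := by
  have hF : Lip F := h.lip.lip h.B0
  have hw := wt_exp hF x
  have bD : ∀ e, BM (D e) := fun e => ⟨h.meas e, B, h.bd e⟩
  rw [ent_sub_eq h hx hK]
  unfold ex
  rw [← mul_div_assoc]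
  refine div_le_div_of_nonneg_right ?_ hw.tot_pos.le
  have b1 : ∀ e, BM (cx (gm κ) K' (fun z => Real.exp (x * F z)) (D e)) := fun e =>
    hw.bm_cx K' (bD e)
  set R : (κ → ℝ) → ℝ := fun z => ∑ e ∈ K' \ K,
    cx (gm κ) K' (fun z => Real.exp (x * F z)) (D e) z ^ 2 with hR
  have eR : EG R := by
    refine EG.sum _ fun e _ => EG.pow ?_ 2
    obtain ⟨C, hC⟩ := (b1 e).bd
    exact EG.of_bdd (b1 e).meas hC
  have dR : H646.Dep K' R := by
    intro z z'
    simp only [hR]
    exact Finset.sum_congr rfl fun e _ => by rw [dep_cx K' z z']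
  have ec : EG (ckl x F K K') := EG.of_bdd (meas_ckl hF hx hK) (ckl_bd h hx hK)
  have e0 := eg_exp_lwn hF x K
  have e0' := eg_exp_lwn hF x K'
  rw [int_dep hF x eR dR, int_dep hF x ec (dep_ckl hF hx hK),
    ← integral_glue (gm κ) K (e0'.mul eR).integrable, ← integral_const_mul]
  have i1 : Integrable (fun z => ∫ z', Real.exp (lwn x F K' (glue K z z')) *
      R (glue K z z') ∂(gI κ)) (gI κ) :=
    (integrable_glue (μ := gm κ) K (e0'.mul eR).integrable).integral_prod_left
  refine integral_mono (e0.mul ec).integrable (i1.const_mul _) fun z => ?_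
  simp only
  have h1 := mul_le_mul_of_nonneg_left (ckl_le h hx hK z) (Real.exp_pos (lwn x F K z)).le
  refine h1.trans (le_of_eq ?_)
  have := (Real.exp_pos (lwn x F K z)).ne'
  field_simp
  rfl

/-- **The lower bound by the conditional means given `K`.** -/
theorem ent_ge_sq (hx : 0 < x) (hK : K ⊆ K') : x ^ 2 / 2 *
    ex (gm κ) (fun z => Real.exp (x * F z)) (fun z => ∑ e ∈ K' \ K,
      cx (gm κ) K (fun z => Real.exp (x * F z)) (D e) z ^ 2) ≤ ent x F K' - ent x F K := by
  have hF : Lip F := h.lip.lip h.B0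
  have hw := wt_exp hF x
  have bD : ∀ e, BM (D e) := fun e => ⟨h.meas e, B, h.bd e⟩
  rw [ent_sub_eq h hx hK]
  unfold ex
  rw [← mul_div_assoc]
  refine div_le_div_of_nonneg_right ?_ hw.tot_pos.le
  have b1 : ∀ e, BM (cx (gm κ) K (fun z => Real.exp (x * F z)) (D e)) := fun e =>
    hw.bm_cx K (bD e)
  have eR : EG fun z => ∑ e ∈ K' \ K,
      cx (gm κ) K (fun z => Real.exp (x * F z)) (D e) z ^ 2 := by
    refine EG.sum _ fun e _ => EG.pow ?_ 2
    obtain ⟨C, hC⟩ := (b1 e).bd
    exact EG.of_bdd (b1 e).meas hC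
  have ec : EG (ckl x F K K') := EG.of_bdd (meas_ckl hF hx hK) (ckl_bd h hx hK)
  have ew := hF.exp_eg x
  rw [← integral_const_mul]
  refine integral_mono ((ew.mul eR).integrable.const_mul _) (ew.mul ec).integrable fun z => ?_
  simp only
  have h1 := mul_le_mul_of_nonneg_left (le_ckl h hx hK z) (Real.exp_pos (x * F z)).le
  refine le_trans (le_of_eq ?_) h1
  ring

end main

end Vale.Agent.P146.H119
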