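import Vale.Agent.P146.H122.QF
import Vale.Agent.P146.H418.Par

/-!
# P146: the data of the amplitude laws, in the size and the unit

Port of `H418.kw_two` (and `H418.kw_one`) to `EV`.
-/

open MeasureTheory ProbabilityTheory Filter Topology

namespace Vale.Agent.P146.S3

open Vale.Agent.P146.H425 Vale.Agent.P146.H317 Vale.Agent.P146.H529 Vale.Agent.P146.H418

variable {a0 b₁ A b : ℝ}

/-- The second choice: `s² = n^(-80q) V`. -/
theorem kw_two (ha0 : a0 ≤ 1 / 6) (hA : 1 ≤ A) :
    EV fun n q => ∀ y V al : ℝ, (n : ℝ) ^ (-a0 + 1000 * q) ≤ A * y →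
      y ≤ A * (n : ℝ) ^ (-b₁) → (n : ℝ) ^ (-(24 * q)) * y ^ 3 ≤ A * V →
      V ≤ A * ((n : ℝ) ^ (-(24 * q)) * y ^ 3) → SG n b y V al → H178.AP b (q / 2) n y (2 * V) →
      KW a0 b₁ q A b n y V al (s2F q n V) (lamF q n y) (etaF q n) := by
  filter_upwards [ev_log one_pos (2 * Real.log A), ev_log one_pos (7 * Real.log A),
    ev_ge 2, ev_q0] with ⟨n, q⟩ e1 e2 hn hq
  dsimp only at e1 e2 hn hq ⊢
  rw [one_mul] at e1 e2
  replace hn : 1 < n := by omega
  intro y V al h1 h2 h3 h4 h5 h6
  have hn0 : (0 : ℝ) < n := by exact_mod_cast (by omega : 0 < n)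
  have hn1 : (1 : ℝ) < n := by exact_mod_cast hn
  have hL : 0 < Real.log n := Real.log_pos hn1
  have hA0 : 0 < A := by linarith
  obtain ⟨hy, h1'⟩ := yl_log hn hA h1
  have hV : 0 < V := by
    have : 0 < A * V := lt_of_lt_of_le (by positivity) h3
    by_contra hV
    push Not at hV
    nlinarith
  have h3' := Real.log_le_log (by positivity) h3
  rw [Real.log_mul (by positivity) (by positivity), Real.log_rpow hn0, Real.log_pow,
    Real.log_mul hA0.ne' hV.ne'] at h3'
  push_cast at h3'
  have hs2 : s2F q n V ^ 2 = (n : ℝ) ^ (-(80 * q)) * V := Real.sq_sqrt (by positivity)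
  have m2 : a0 * Real.log n ≤ 1 / 6 * Real.log n := mul_le_mul_of_nonneg_right ha0 hL.le
  have m3 : 0 < q * Real.log n := mul_pos hq hL
  refine ⟨hn, hy, h1, h2, hV, h3, h4, h5, h6, Real.sqrt_pos.2 (by positivity), ?_,
    Real.rpow_pos_of_pos hn0 _, le_rfl, div_pos (Real.rpow_pos_of_pos hn0 _) hy, ?_, ?_⟩
  · rw [hs2]
  · unfold lamF etaF
    have e : y * ((n : ℝ) ^ (2001 * q) / y * (n : ℝ) ^ (-(2000 * q))) =
        (n : ℝ) ^ (2001 * q) * (n : ℝ) ^ (-(2000 * q)) := by
      field_simp
    rw [e, ← Real.rpow_add hn0]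
    refine Real.rpow_le_rpow_of_exponent_le hn1.le ?_
    linarith
  · rw [hs2]
    unfold lamF
    refine H470.le_of_log (by positivity) (by positivity) ?_
    rw [Real.log_div (by positivity) hy.ne', Real.log_mul (by positivity) (by positivity),
      Real.log_mul (by positivity) (by positivity), Real.log_mul (by positivity) (by positivity),
      Real.log_mul (by positivity) hV.ne', Real.log_rpow hn0, Real.log_rpow hn0,
      Real.log_rpow hn0, Real.log_pow]
    push_cast
    linarith

end Vale.Agent.P146.S3
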