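import Vale.Agent.P146.H122.S3c
import Vale.Agent.P146.H119.S3N7
import Vale.Agent.P146.H412.UpU

/-!
# P146: the upper bound of the relative entropy, second choice, in the size and the unit

Port of `H412.U.apr_g`, `H412.U.kup_kwU` to `EV`.
-/

open MeasureTheory ProbabilityTheory Filter Topology Set

namespace Vale.Agent.P146.S3

open Vale.Agent.P157.Lv hiding Dep
open Vale.Agent.P146.H425 Vale.Agent.P146.H646 Vale.Agent.P146.H317 Vale.Agent.P146.H418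
  Vale.Agent.P146.H529 Vale.Agent.P146.H197 Vale.Agent.P146.H412.U
open Vale.Agent.P146.H470 (Env)

/-- the a-priori numbers with the modulated field revealed, on the window of the data -/
theorem apr_g {a0 b₁ A b : ℝ} (hb : 0 < b) (ha6 : a0 ≤ 1 / 6) (hb1 : 0 < b₁) (hA : 1 ≤ A) :
    EV fun n q => ∀ y V al s lam η : ℝ, KW a0 b₁ q A b n y V al s lam η →
      ∀ (S : Finset (Fin n)) (T u : ℝ), 0 < T → T ≤ 1 → u ∈ Icc (0 : ℝ) 1 →
        (lawOf n b y V al s lam η).rrg S (1 - T) u 1 ≤ (n : ℝ) ^ q * y ^ 4 / T ∧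
        (lawOf n b y V al s lam η).ffg S (1 - T) u 1 ≤ n * √((n : ℝ) ^ q * y ^ 4 / T) ∧
        (lawOf n b y V al s lam η).fag S (1 - T) u 1 ≤ n * (4 * √((n : ℝ) ^ q * y ^ 4 / T)) := by
  filter_upwards [apr_CC hb ha6 hb1 hA,
    q1g_ev (s0 := 1 / 2) (s1 := 3 / 4) (e := 500) hb (by norm_num) (by norm_num) (by norm_num),
    ev_rpow (show (0 : ℝ) < 1 / 4 by norm_num) (12 / b ^ 2)] with ⟨n, q⟩ g1 g2 g3
  dsimp only at g1 g2 g3 ⊢
  intro y V al s lam η hK S T u hT0 hT1 hu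
  rw [show 3 / 4 * q = 3 * q / 4 by ring, show 1 / 2 * q = q / 2 by ring] at g2
  rw [show 1 / 4 * q = q / 4 by ring] at g3
  obtain ⟨hE, W, -, -⟩ := g1 y V al s lam η hK
  have n0 : (0 : ℝ) < n := hE.n0
  obtain ⟨h1, h2, h3⟩ := g2 (V - s ^ 2) s lam η y V al (H122.par_of hK W) W.vp0
    (H122.yb_le hb W) (1 - T) (by linarith) (by linarith) u hu 1 ⟨zero_le_one, le_rfl⟩ S
  rw [sub_sub_cancel] at h1 h2 h3
  have e2 : (n : ℝ) ^ q = (n : ℝ) ^ (q / 4) * (n : ℝ) ^ (3 * q / 4) := by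
    rw [← Real.rpow_add n0]
    congr 1
    ring
  have k : 12 * ((n : ℝ) ^ (3 * q / 4) * y ^ 4) / (b ^ 2 * T) ≤ (n : ℝ) ^ q * y ^ 4 / T := by
    have e1 : 12 * ((n : ℝ) ^ (3 * q / 4) * y ^ 4) / (b ^ 2 * T) =
        12 / b ^ 2 * ((n : ℝ) ^ (3 * q / 4) * y ^ 4 / T) := by
      field_simp
    rw [e1, e2]
    refine (mul_le_mul_of_nonneg_right g3 (show 0 ≤ (n : ℝ) ^ (3 * q / 4) * y ^ 4 / T by
      positivity)).trans (le_of_eq ?_)
    ring
  have k' := Real.sqrt_le_sqrt k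
  refine ⟨h1.trans k, h2.trans (mul_le_mul_of_nonneg_left k' n0.le),
    h3.trans (mul_le_mul_of_nonneg_left (by linarith) n0.le)⟩

/-- **The upper bound of the relative entropy on the window of the data**, second choice. -/
theorem kup_kwU {a0 b₁ A b : ℝ} (hb : 0 < b) (ha6 : a0 ≤ 1 / 6) (hb1 : 0 < b₁) (hA : 1 ≤ A) :
    EV fun n q => ∀ y V al s lam η a : ℝ, KW a0 b₁ q A b n y V al s lam η →
      0 < a → a ≤ A * ((n : ℝ) ^ (-(10 * q)) * y ^ 2) →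
      H122.RowUp1 q b n y V al s lam η a → H122.RowUp2 q b n y V al s lam η →
      N7g q b n y V al s lam η →
      (lawOf n b y V al s lam η).KA ≤ n * y ^ 2 * b ^ 2 / 4 * (J (b * y) (2 * a) (V / b ^ 2) +
        (n : ℝ) ^ (-(36 * q)) * y ^ 4) := by
  filter_upwards [apr_CC hb ha6 hb1 hA, apr_g hb ha6 hb1 hA, ev_q0, ev_qlt100 hb1]
    with ⟨n, q⟩ g1 g2 hq hq1
  dsimp only at g1 g2 hq hq1 ⊢
  replace hb1 : 100 * q ≤ b₁ := hq1.le
  intro y V al s lam η a hK ha0 ha hr1 hr2 hN7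
  obtain ⟨hE, W, g4, hCC⟩ := g1 y V al s lam η hK
  have hCg := g2 y V al s lam η hK
  have hC : H122.Cst q (4000 + 20 * |Real.log b| + 20 * Real.log A) b₁ b A :=
    ⟨hb, hA, hq, hb1, le_rfl⟩
  have n0 : (0 : ℝ) < n := hE.n0
  have y0 := W.y0
  have hl : 0 < (lawOf n b y V al s lam η).lam := hK.l0
  have hη : 0 ≤ (lawOf n b y V al s lam η).η := hK.η0.le
  have hnn : 0 < (lawOf n b y V al s lam η).n := W.n0
  have h0 : 0 < H122.hh q n := W.h0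
  obtain ⟨N, N', hNN, hN1, hTN, hTN1, hTN1', hN'1, hN'2⟩ := H122.levels W
  have hTN0 : 0 < gg (H122.hh q n) N := gg_pos h0.le _
  have hTNN : gg (H122.hh q n) N ≤ 1 := gg_le_one h0.le _
  -- the shares
  have hw8 : (0 : ℝ) < (n : ℝ) ^ (-(80 * q)) := Real.rpow_pos_of_pos n0 _
  have hu00 : 0 ≤ H122.u0 q n := by unfold H122.u0; linarith [W.w8]
  have hzv : (n : ℝ) ^ (-(37 * q)) * y ^ 4 / (V - s ^ 2) ≤ 2 * (n : ℝ) ^ (-(80 * q)) := by
    rw [div_le_iff₀ W.vp0]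
    exact W.z2
  have hzv0 : 0 ≤ (n : ℝ) ^ (-(37 * q)) * y ^ 4 / (V - s ^ 2) :=
    div_nonneg (by positivity) W.vp0.le
  have huu : H122.u0 q n ≤ H122.uN q n y (V - s ^ 2) := by
    unfold H122.u0 H122.uN
    linarith
  have huN1 : H122.uN q n y (V - s ^ 2) ≤ 1 := by
    unfold H122.uN
    linarith
  have hu11 : H122.u1 q n ≤ 1 := by unfold H122.u1; linarith
  have hudiff : H122.uN q n y (V - s ^ 2) - H122.u0 q n ≤ 2 * (n : ℝ) ^ (-(80 * q)) := by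
    unfold H122.u0 H122.uN
    linarith
  have huv : (1 - H122.uN q n y (V - s ^ 2)) * (V - s ^ 2) = (n : ℝ) ^ (-(37 * q)) * y ^ 4 := by
    unfold H122.uN
    have := W.vp0
    field_simp
    ring
  obtain ⟨hq0, -, -⟩ := H122.end_numbers (al := al) hq hK.l0 hK.η0.le W g4 hCC hTN hTN0 hTNN
    (u := H122.u0 q n) (u' := H122.uN q n y (V - s ^ 2)) ⟨hu00, huu.trans huN1⟩
    ⟨hu00.trans huu, huN1⟩ (Sn n (2 * H122.m1 q n y))
  obtain ⟨hq1, hqa, hC1⟩ := end_numU (al := al) hq W g4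
    (hCg Finset.univ (gg (H122.hh q n) N) (H122.uN q n y (V - s ^ 2)) hTN0 hTNN
      ⟨hu00.trans huu, huN1⟩) hTN hTN0
  have hR := H122.R_up hC hE h0.le W.h4 ha0 ha
  have key := kupU_typ (lawOf n b y V al s lam η) hl hη (show 0 < V - s ^ 2 from W.vp0)
    (show 0 < s from hK.s0) (show 0 < y from y0)
    (show b ≠ 0 from hb.ne') hnn (h := H122.hh q n) (u := H122.u0 q n) (u1 := H122.u1 q n)
    (u' := H122.uN q n y (V - s ^ 2)) (q0 := (n : ℝ) ^ q * y ^ 2) (q1 := (n : ℝ) ^ (37 * q) * y)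
    (qa := 4 * ((n : ℝ) ^ (37 * q) * y))
    (C1 := (n : ℝ) ^ (72 * q) * y ^ 2) (X := (n : ℝ) ^ (-(37 * q)) * y ^ 4) (c := b * y)
    (a := 2 * a) (w := V / b ^ 2)
    (e := 0) (T₂ := H122.T2 q n y) (T₃ := 1 / 2) (R := (n : ℝ) ^ (-(49 / 5 * q)) * y)
    (E1 := (n : ℝ) ^ (-(67 * q)) * y ^ 2) (W2 := (n : ℝ) ^ (-(7 * q)) * y ^ 6)
    (W3 := (n : ℝ) ^ (-(37 * q)) * y ^ 4) (N := N) (N' := N') (m2 := 2 * H122.m1 q n y)
    W.m2'.le h0 W.h4 hu00 huu huN1 hu11 hNN (by positivity) hq0 hq1 hqa hC1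
    (fun T hT => hN7 T ⟨hN'1.trans hT.1, hT.2.trans hN1⟩)
    (mul_pos hb y0) (div_pos hE.V0 (by positivity)) (by positivity) le_rfl (by positivity)
    (by positivity) (by positivity) hTN1 (by linarith [W.T21]) (by norm_num)
    (by rw [add_zero]; exact hR)
    (fun T hT => by
      obtain ⟨T', hT', u, hu, m, hm, hr⟩ := hr1 T ⟨hTN1'.trans hT.1, hT.2⟩
      exact ⟨T', hT', u, hu, m, hm, by rw [add_zero]; exact hr⟩)
    (fun T hT => hr2 T hT)
  have hcost := mod_cost hC hE hK.s2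
  have hsq : √(s ^ 2 * (4 * ((n : ℝ) ^ (37 * q) * y))) ^ 2 =
      s ^ 2 * (4 * ((n : ℝ) ^ (37 * q) * y)) := Real.sq_sqrt (by positivity)
  have hfin := H122.err_sum (s := √(s ^ 2 * (4 * ((n : ℝ) ^ (37 * q) * y)))) (η := 0) hC hE ha6
    ha0 ha (vp := V - s ^ 2) (by linarith [sq_nonneg s]) W.vp0.le
    (by rw [hsq]; exact hcost) le_rfl zero_le_one (by positivity) W.m2 hu00 (huu.trans huN1)
    (by linarith) hudiff huv hN1 hTN0 hN'1 hN'2
  rw [hsq, show (1 + (0 : ℝ)) ^ 2 = 1 by norm_num, mul_one] at hfin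
  refine (show (lawOf n b y V al s lam η).KA ≤ n * y ^ 2 * b ^ 2 / 4 * _ from key).trans
    (mul_le_mul_of_nonneg_left ?_ (by positivity))
  exact add_le_add le_rfl hfin

end Vale.Agent.P146.S3
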